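import Vale.Agent.N108.Main

/-!
# P108: the blocks of the proof with one explicit threshold

The proofs are those of the blocks in `Vale.Agent.P108`; only the thresholds are made explicit.
-/

set_option linter.all false

namespace Vale.Agent.N108X

/-- `k ≥ exp (10 ^ 11)` -/
structure Huge (k : ℝ) : Prop where
  k0 : 0 < k
  x : 10 ^ 11 ≤ Real.log k

namespace Huge

variable {k : ℝ}

theorem rpow_eq (h : Huge k) (y : ℝ) : k ^ y = Real.exp (y * Real.log k) := by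
  rw [Real.rpow_def_of_pos h.k0, mul_comm]

theorem log_pos (h : Huge k) : 0 < Real.log k := lt_of_lt_of_le (by norm_num) h.x

theorem pow_le (h : Huge k) {y : ℝ} (hy : 0 ≤ y) (n : ℕ) :
    (y * Real.log k) ^ n / n.factorial ≤ k ^ y := by
  rw [h.rpow_eq]
  exact Real.pow_div_factorial_le_exp _ (mul_nonneg hy h.log_pos.le) n

theorem exp_le (h : Huge k) {y C : ℝ} (hy : 0 ≤ y) (hC : C ≤ y * 10 ^ 11) :
    Real.exp C ≤ k ^ y := by
  rw [h.rpow_eq]
  exact Real.exp_le_exp.2 (hC.trans (mul_le_mul_of_nonneg_left h.x hy))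

theorem le_rpow (h : Huge k) {y C : ℝ} (hy : 0 ≤ y) (hC : C ≤ y * 10 ^ 11) : C ≤ k ^ y :=
  le_trans (by linarith [Real.add_one_le_exp C]) (h.exp_le hy hC)

theorem npow_le (h : Huge k) {y c : ℝ} (hy : 0 ≤ y) (hc : 0 ≤ c) (n : ℕ)
    (hC : n * c ≤ y * 10 ^ 11) : c ^ n ≤ k ^ y := by
  refine le_trans ?_ (h.exp_le hy hC)
  rw [Real.exp_nat_mul]
  exact pow_le_pow_left₀ hc (by linarith [Real.add_one_le_exp c]) n

theorem ge (h : Huge k) {C : ℝ} (hC : C ≤ 10 ^ 11) : C ≤ k := by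
  have := h.le_rpow (y := 1) (C := C) zero_le_one (by linarith)
  rwa [Real.rpow_one] at this

theorem pow_ge (h : Huge k) {c : ℝ} (hc : 0 ≤ c) (n : ℕ) (hC : n * c ≤ 10 ^ 11) : c ^ n ≤ k := by
  have := h.npow_le (y := 1) zero_le_one hc n (by linarith)
  rwa [Real.rpow_one] at this

theorem one_le (h : Huge k) : 1 ≤ k := h.ge (by norm_num)

theorem big (h : Huge k) : P108.H462.Big k := ⟨h.k0, le_trans (by norm_num) h.x⟩

theorem rpow_neg_le_one (h : Huge k) {y : ℝ} (hy : y ≤ 0) : k ^ y ≤ 1 :=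
  Real.rpow_le_one_of_one_le_of_nonpos h.one_le hy

/-- `C (log k) ^ 2 ≤ k ^ y` -/
theorem log_sq_le (h : Huge k) {y C : ℝ} (hy : 0 ≤ y) (hC0 : 0 ≤ C)
    (hC : C * 720 ≤ y ^ 6 * 10 ^ 44) : C * Real.log k ^ 2 ≤ k ^ y := by
  refine le_trans ?_ (h.pow_le hy 6)
  have h1 : (10 ^ 11 : ℝ) ^ 4 ≤ Real.log k ^ 4 := pow_le_pow_left₀ (by norm_num) h.x 4
  have h2 : 0 ≤ Real.log k ^ 2 := sq_nonneg _
  have h3 : C * 720 ≤ y ^ 6 * Real.log k ^ 4 := by
    refine hC.trans (mul_le_mul_of_nonneg_left ?_ (by positivity))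
    refine le_trans (le_of_eq ?_) h1
    norm_num
  have h4 := mul_le_mul_of_nonneg_right h3 h2
  rw [le_div_iff₀ (by positivity)]
  have e : ((Nat.factorial 6 : ℕ) : ℝ) = 720 := by norm_num [Nat.factorial]
  rw [e]
  calc C * Real.log k ^ 2 * 720 = C * 720 * Real.log k ^ 2 := by ring
    _ ≤ _ := h4
    _ = _ := by ring

theorem ev_le (h : Huge k) {c C : ℝ} (hC : C ≤ k ^ c) : C * k ^ (-(2 * c)) ≤ k ^ (-c) := by
  have h3 : k ^ (-c) = k ^ c * k ^ (-(2 * c)) := by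
    rw [← Real.rpow_add h.k0]; congr 1; ring
  rw [h3]
  exact mul_le_mul_of_nonneg_right hC (Real.rpow_nonneg h.k0.le _)

end Huge

/-- the constant of the zone lemma -/
noncomputable def cz : ℝ := 1 / (360 * Real.pi ^ 2)

theorem cz_pos : 0 < cz := by
  have := Real.pi_pos
  unfold cz
  positivity

theorem cz_ge : 1 / 3600 ≤ cz := by
  have h1 := Real.pi_lt_d2
  have h2 := Real.pi_pos
  unfold cz
  apply one_div_le_one_div_of_le (by positivity)
  nlinarith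

theorem cz_le : cz ≤ 1 := by
  have h1 := Real.pi_gt_three
  unfold cz
  rw [div_le_one (by positivity)]
  nlinarith

theorem cz_small {k : ℝ} (H : Huge k) {d : ℝ} (hd : 1 ≤ d) : cz / d * k ^ (P108.Sk.cb - 1) < 1 := by
  have h1 : k ^ (P108.Sk.cb - 1) < 1 :=
    Real.rpow_lt_one_of_one_lt_of_neg (lt_of_lt_of_le one_lt_two (H.ge (by norm_num))) (by norm_num)
  have h2 : cz / d ≤ 1 := (div_le_self cz_pos.le hd).trans cz_le
  have h3 : 0 ≤ k ^ (P108.Sk.cb - 1) := Real.rpow_nonneg H.k0.le _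
  exact lt_of_le_of_lt ((mul_le_mul_of_nonneg_right h2 h3).trans (one_mul _).le) h1

section
open MeasureTheory Filter Set Topology
open scoped ENNReal
open Vale.Agent.P108 Vale.Agent.P108.Dyn Vale.Agent.P108.H786 P108C
open Vale.Agent.P108.Sk Vale.Agent.P108.H954

theorem nearX {k : ℝ} (H : Huge k) : ∃ s ∈ Icc (0 : ℝ) 1, mQ.real (Near k s) ≤ k⁻¹ := by
  classical
  have hk : (2 : ℝ) ^ 200 ≤ k := H.pow_ge (by norm_num) 200 (by norm_num)
  have hk0 : (0 : ℝ) < k := lt_of_lt_of_le (by positivity) hk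
  obtain ⟨s, hs, hs1⟩ := exists_generic mQ (ι := Dec)
    (fun d z => d.num (ao k z) / d.den k (ao k z))
    (fun d => (measurable_num k d).div (measurable_den k d))
    (fun _ s => 1 + s) (fun _ => measurable_const.add measurable_id)
    (fun _ => 1) (fun d => k ^ (-((d.dst : ℝ) / 12))) (fun _ => one_pos)
    (fun _ s _ t _ => by
      rw [one_mul]
      apply le_of_eq
      congr 1
      ring)
    (fun d => if d.Adm k then 1 else 0)
  refine ⟨s, hs, ?_⟩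
  have hsub : Near k s ⊆ ⋃ d : Dec, {z | d.Adm k ∧
      |d.num (ao k z) / d.den k (ao k z) - (1 + s)| ≤ k ^ (-((d.dst : ℝ) / 12))} := by
    rintro z ⟨d, h1, h2⟩
    exact mem_iUnion.2 ⟨d, h1, h2⟩
  have h1 : mQ (Near k s) ≤ ENNReal.ofReal k⁻¹ := by
    calc mQ (Near k s) ≤ ∑' d : Dec, mQ {z | d.Adm k ∧
        |d.num (ao k z) / d.den k (ao k z) - (1 + s)| ≤ k ^ (-((d.dst : ℝ) / 12))} :=
          (measure_mono hsub).trans (measure_iUnion_le _)
      _ ≤ ∑' d : Dec, (if d.Adm k then 1 else 0) * mQ {z |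
          |d.num (ao k z) / d.den k (ao k z) - (1 + s)| ≤ k ^ (-((d.dst : ℝ) / 12))} := by
          apply ENNReal.tsum_le_tsum
          intro d
          by_cases hd : d.Adm k
          · simp [hd]
          · simp [hd]
      _ ≤ ∑' d : Dec, (if d.Adm k then 1 else 0) *
          ENNReal.ofReal (2 * k ^ (-((d.dst : ℝ) / 12)) / 1) := hs1
      _ ≤ ∑' d : Dec, ENNReal.ofReal (k⁻¹ / 108) * ENNReal.ofReal ((1 / 2 : ℝ) ^ dsz d) := by
          apply ENNReal.tsum_le_tsum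
          intro d
          by_cases hd : d.Adm k
          · simp only [hd, if_true, one_mul, div_one]
            rw [← ENNReal.ofReal_mul (by positivity)]
            exact ENNReal.ofReal_le_ofReal (weight_le hk hd)
          · simp [hd]
      _ ≤ ENNReal.ofReal (k⁻¹ / 108) * ENNReal.ofReal 108 := by
          rw [ENNReal.tsum_mul_left]
          gcongr
          exact tsum_dsz
      _ = ENNReal.ofReal k⁻¹ := by
          rw [← ENNReal.ofReal_mul (by positivity)]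
          congr 1
          ring
  rw [measureReal_def]
  exact ENNReal.toReal_le_of_le_ofReal (by positivity) h1

end

section
open MeasureTheory Filter Set Topology
open scoped ENNReal
open Vale.Agent.P108 Vale.Agent.P108.Dyn Vale.Agent.P108.H786 P108C
open Vale.Agent.P108.Sk

theorem ncX {k : ℝ} (H : Huge k) : ∀ s ∈ Icc (0 : ℝ) 1,
    mQ.real {z | (0 : ℤ) ∈ NC k s (ao k z)} ≤ k ^ (-(1 / 20000) : ℝ) ∧
    mQ.real {z | NcMax k s (ao k z)} ≤ k ^ (-(1 / 20000) : ℝ) := by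
  intro s hs
  have hk1 : 1 ≤ k := H.one_le
  have hk2 := H.ev_le (c := 1 / 20000) (C := 82) (H.le_rpow (by norm_num) (by norm_num))
  have hτ : 0 ≤ (1 + s) * k ^ (1 - ce) := by
    have := hs.1
    positivity
  have h0 : (1 + s) * k ^ (1 - ce) / k ≤ 2 * k ^ (-(2 * (1 / 20000)) : ℝ) := by
    refine (ncthr_le hk1 hs).trans (le_of_eq ?_)
    congr 2
    norm_num
  have h1 := mass_small hk1 hτ
  have h2 := nc_masses hk1 hτ
  have hpos : 0 < k ^ (-(2 * (1 / 20000)) : ℝ) := by positivity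
  have h4 := measureReal_mono (μ := mQ) (ncMax_subset k s)
  have h5 := h4.trans ((measureReal_union_le _ _).trans
    (add_le_add (measureReal_union_le _ _) le_rfl))
  exact ⟨h1.trans (by linarith), h5.trans (by linarith)⟩

end

section
open Filter Set Topology
open scoped ENNReal
open Vale.Agent.P108.Por

theorem pkTermX {b c₁ c₂ : ℝ} (hc₁ : 0 < c₁) (hc₂ : 0 < c₂) (C₁ C₂ : ℕ) {k : ℝ}
    (h1 : c₁ * k ^ (b - 1) < 1) (h2 : (s0 b k : ℝ) + 1 ≤ k) (h3 : 1 ≤ k) (h4 : (C₁ : ℝ) ≤ k)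
    (h5 : 2 ≤ c₂ * (s0 b k : ℝ)) (h6 : 1 ≤ Real.log k)
    (h7 : 2 * (2 * (C₁ : ℝ) + 3 * C₂) / (c₁ * c₂ / 2) ≤ Real.log k)
    (h8 : 4 * Real.log 3 / (c₁ * c₂ / 2) ≤ Real.log k ^ 2) (j : ℕ) :
      0 ≤ pkTerm b c₁ c₂ C₁ C₂ k j ∧
      pkTerm b c₁ c₂ C₁ C₂ k j ≤ Real.exp (-(c₁ * c₂ / 8) * (Real.log k) ^ 2) ^ (j + 1) := by
  set A : ℝ := 2 * C₁ + 3 * C₂ with hA
  have hA0 : 0 ≤ A := by positivity
  set c : ℝ := c₁ * c₂ / 2 with hc
  have hc0 : 0 < c := by positivity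
  have hk0 : 0 < k := by linarith
  set L := Real.log k with hL
  have hkb : 0 < k ^ (b - 1) := Real.rpow_pos_of_pos hk0 _
  set s : ℝ := (s0 b k : ℝ) with hs
  have hsnn : 0 ≤ s := Nat.cast_nonneg _
  set q : ℝ := c₁ * k ^ (b - 1) with hq
  have hq0 : 0 < q := by positivity
  have hbase : 0 ≤ 1 - q := by linarith
  set P : ℝ := 2 ^ j with hP
  have hP1 : 1 ≤ P := one_le_pow₀ (by norm_num)
  have hjP : (j : ℝ) + 1 ≤ P := by
    have : j + 1 ≤ 2 ^ j := Nat.succ_le_of_lt Nat.lt_two_pow_self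
    calc (j : ℝ) + 1 = ((j + 1 : ℕ) : ℝ) := by push_cast; ring
      _ ≤ ((2 ^ j : ℕ) : ℝ) := by exact_mod_cast this
      _ = P := by push_cast; rfl
  have hpow : (1 - q) ^ ⌊c₂ * (s * P)⌋₊ ≤ Real.exp (-c * L ^ 2 * P) := by
    have e1 : 1 - q ≤ Real.exp (-q) := by
      have := Real.add_one_le_exp (-q); linarith
    calc (1 - q) ^ ⌊c₂ * (s * P)⌋₊ ≤ Real.exp (-q) ^ ⌊c₂ * (s * P)⌋₊ :=
          pow_le_pow_left₀ hbase e1 _
      _ = Real.exp (-(⌊c₂ * (s * P)⌋₊ * q)) := by rw [← Real.exp_nat_mul]; ring_nf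
      _ ≤ Real.exp (-c * L ^ 2 * P) := by
        rw [Real.exp_le_exp]
        have e2 : c₂ * (s * P) / 2 ≤ ⌊c₂ * (s * P)⌋₊ := by
          have := Nat.lt_floor_add_one (c₂ * (s * P))
          have : 2 ≤ c₂ * (s * P) := by nlinarith
          linarith
        have e3 : L ^ 2 ≤ k ^ (b - 1) * s := log_sq_le hk0
        have e4 : c * L ^ 2 * P ≤ c₂ * (s * P) / 2 * q := by
          have : c₂ * (s * P) / 2 * q = c * (k ^ (b - 1) * s) * P := by rw [hc, hq]; ring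
          rw [this]
          gcongr
        have e5 : c₂ * (s * P) / 2 * q ≤ ⌊c₂ * (s * P)⌋₊ * q := by gcongr
        linarith
  have hcard : (s + 1) ^ (C₁ * (2 ^ j + 1)) ≤ Real.exp (2 * C₁ * L * P) := by
    calc (s + 1) ^ (C₁ * (2 ^ j + 1)) ≤ k ^ (C₁ * (2 ^ j + 1)) :=
          pow_le_pow_left₀ (by positivity) h2 _
      _ = Real.exp ((C₁ * (P + 1)) * L) := by
          rw [← Real.exp_log (pow_pos hk0 _), Real.log_pow, hL, hP]; push_cast; ring_nf
      _ ≤ _ := by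
          rw [Real.exp_le_exp]
          have : 0 ≤ (C₁ : ℝ) * L := by positivity
          nlinarith
  have hwt : ((C₁ : ℝ) * (s * P)) ^ C₂ ≤ Real.exp (3 * C₂ * L * P) := by
    have e1 : (C₁ : ℝ) * (s * P) ≤ Real.exp (3 * L * P) := by
      have hPe : P ≤ Real.exp P := by have := Real.add_one_le_exp P; linarith
      calc (C₁ : ℝ) * (s * P) ≤ k * (k * Real.exp P) := by
            have : s ≤ k := by linarith
            gcongr
        _ = Real.exp (L + (L + P)) := by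
            rw [Real.exp_add, Real.exp_add, Real.exp_log hk0]
        _ ≤ _ := by
            rw [Real.exp_le_exp]
            nlinarith
    calc ((C₁ : ℝ) * (s * P)) ^ C₂ ≤ Real.exp (3 * L * P) ^ C₂ :=
          pow_le_pow_left₀ (by positivity) e1 _
      _ = _ := by rw [← Real.exp_nat_mul]; ring_nf
  constructor
  · unfold pkTerm; positivity
  have h3exp : (3 : ℝ) ≤ Real.exp (c / 4 * L ^ 2 * P) := by
    have e1 : Real.log 3 ≤ c / 4 * L ^ 2 * P := by
      rw [div_le_iff₀ hc0] at h8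
      have : 0 ≤ c / 4 * L ^ 2 := by positivity
      nlinarith
    calc (3 : ℝ) = Real.exp (Real.log 3) := (Real.exp_log (by norm_num)).symm
      _ ≤ _ := Real.exp_le_exp.2 e1
  calc pkTerm b c₁ c₂ C₁ C₂ k j
      = ((C₁ : ℝ) * (s * P)) ^ C₂ * (s + 1) ^ (C₁ * (2 ^ j + 1)) *
          (3 * (1 - q) ^ ⌊c₂ * (s * P)⌋₊) := rfl
    _ ≤ Real.exp (3 * C₂ * L * P) * Real.exp (2 * C₁ * L * P) *
          (Real.exp (c / 4 * L ^ 2 * P) * Real.exp (-c * L ^ 2 * P)) := by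
        gcongr
    _ = Real.exp (A * L * P - 3 * c / 4 * L ^ 2 * P) := by
        rw [← Real.exp_add, ← Real.exp_add, ← Real.exp_add, hA]; ring_nf
    _ ≤ Real.exp (-(c₁ * c₂ / 8) * L ^ 2 * (j + 1)) := by
        rw [Real.exp_le_exp]
        have e1 : A ≤ c / 2 * L := by
          rw [div_le_iff₀ hc0] at h7; linarith
        have e2 : A * L * P ≤ c / 2 * L ^ 2 * P := by
          have : A * L ≤ c / 2 * L * L := by gcongr
          have : A * L * P ≤ c / 2 * L * L * P := by gcongr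
          calc _ ≤ _ := this
            _ = _ := by ring
        have e3 : c / 4 * L ^ 2 * (j + 1) ≤ c / 4 * L ^ 2 * P := by gcongr
        have e4 : c₁ * c₂ / 8 = c / 4 := by rw [hc]; ring
        rw [e4]
        nlinarith
    _ = _ := by
        rw [← Real.exp_nat_mul]; push_cast; ring_nf

theorem tsumX {b c₁ c₂ : ℝ} (C₁ C₂ : ℕ) {k : ℝ}
    (h1 : ∀ j : ℕ, 0 ≤ pkTerm b c₁ c₂ C₁ C₂ k j ∧
      pkTerm b c₁ c₂ C₁ C₂ k j ≤ Real.exp (-(c₁ * c₂ / 8) * (Real.log k) ^ 2) ^ (j + 1))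
    (h2 : Real.exp (-(c₁ * c₂ / 8) * (Real.log k) ^ 2) < 1 / 2) :
      ∑' j : ℕ, ENNReal.ofReal (pkTerm b c₁ c₂ C₁ C₂ k j) ≤
        ENNReal.ofReal (2 * Real.exp (-(c₁ * c₂ / 8) * (Real.log k) ^ 2)) := by
  set q := Real.exp (-(c₁ * c₂ / 8) * (Real.log k) ^ 2) with hqd
  have hq0 : 0 < q := Real.exp_pos _
  have hs : HasSum (fun j : ℕ => q ^ (j + 1)) (q * (1 - q)⁻¹) := by
    have := (hasSum_geometric_of_lt_one hq0.le (by linarith)).mul_left q
    refine this.congr_fun ?_ |> fun h => h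
    intro j; ring
  calc ∑' j : ℕ, ENNReal.ofReal (pkTerm b c₁ c₂ C₁ C₂ k j)
      ≤ ∑' j : ℕ, ENNReal.ofReal (q ^ (j + 1)) :=
        ENNReal.tsum_le_tsum fun j => ENNReal.ofReal_le_ofReal (h1 j).2
    _ = ENNReal.ofReal (q * (1 - q)⁻¹) := by
        rw [← ENNReal.ofReal_tsum_of_nonneg (fun j => by positivity) hs.summable, hs.tsum_eq]
    _ ≤ _ := by
        refine ENNReal.ofReal_le_ofReal ?_
        have : (1 - q)⁻¹ ≤ 2 := by
          rw [inv_le_comm₀ (by linarith) (by norm_num)]; linarith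
        nlinarith

theorem s0_le {k : ℝ} (H : Huge k) : (s0 P108.Sk.cb k : ℝ) + 1 ≤ k := by
  have hk0 := H.k0
  have hk4 : 4 ≤ k := H.ge (by norm_num)
  have hkb : 0 < k ^ P108.Sk.cb := Real.rpow_pos_of_pos hk0 _
  have hk := H.log_sq_le (y := P108.Sk.cb) (C := 2) (by norm_num) (by norm_num) (by norm_num)
  have h3 : k ^ (1 - P108.Sk.cb) * (Real.log k) ^ 2 ≤ k / 2 := by
    rw [Real.rpow_sub hk0, Real.rpow_one]
    rw [div_mul_eq_mul_div, div_le_iff₀ hkb]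
    nlinarith
  have h0 : 0 ≤ k ^ (1 - P108.Sk.cb) * (Real.log k) ^ 2 := by positivity
  have h4 := Nat.ceil_lt_add_one h0
  have : (s0 P108.Sk.cb k : ℝ) < k ^ (1 - P108.Sk.cb) * (Real.log k) ^ 2 + 1 := h4
  generalize k ^ (1 - P108.Sk.cb) * (Real.log k) ^ 2 = B at *
  linarith

theorem sumX {k : ℝ} (H : Huge k) :
    ∑' j : ℕ, ENNReal.ofReal (pkTerm P108.Sk.cb (cz / 24) (1 / 96) (6 + 2 * P108.Sk.cZ + 1) (3 + 1) k j) ≤
      ENNReal.ofReal (2 * Real.exp (-(cz / 24 * (1 / 96) / 8) * (Real.log k) ^ 2)) := by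
  have hz := cz_ge
  have hx := H.x
  have hx2 : 10 ^ 11 * 10 ^ 11 ≤ Real.log k ^ 2 := by nlinarith
  refine tsumX _ _ (pkTermX (by positivity) (by norm_num) _ _ (cz_small H (by norm_num)) (s0_le H)
    H.one_le (H.ge (by norm_num)) ?_ (by linarith) ?_ ?_) ?_
  · have h1 := s0_ge P108.Sk.cb k
    have h2 : 1 ≤ k ^ (1 - P108.Sk.cb) := Real.one_le_rpow H.one_le (by norm_num)
    nlinarith
  · rw [div_le_iff₀ (by positivity)]
    push_cast
    nlinarith
  · rw [div_le_iff₀ (by positivity)]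
    have := Real.log_le_sub_one_of_pos (show (0 : ℝ) < 3 by norm_num)
    nlinarith
  · have h1 : -(cz / 24 * (1 / 96) / 8) * (Real.log k) ^ 2 ≤ -1 := by nlinarith
    refine (Real.exp_le_exp.2 h1).trans_lt ?_
    rw [Real.exp_neg, inv_lt_comm₀ (Real.exp_pos _) (by norm_num)]
    have := Real.exp_one_gt_d9
    linarith

end

section
open MeasureTheory Filter Set Topology
open scoped ENNReal
open Vale.Agent.P108 Vale.Agent.P108.Dyn Vale.Agent.P108.H786 Vale.Agent.P108.Area P108C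
open Vale.Agent.P108.Por hiding s0

theorem zoneX {b c₁ c₂ : ℝ} (C₁ C₂ Z : ℕ) {k : ℝ}
    (h1 : ∑' j : ℕ, ENNReal.ofReal (pkTerm b c₁ c₂ (C₁ + 2 * Z + 1) (C₂ + 1) k j) ≤
        ENNReal.ofReal (2 * Real.exp (-(c₁ * c₂ / 8) * (Real.log k) ^ 2)))
    (h2 : c₁ * k ^ (b - 1) ≤ 1) (h3 : 1 < k) :
    ∀ P : ℝ × ℝ → ℤ → ℕ → Prop, EquiP (Tz k) P →
      (∀ j, mQ {z | P z 0 j} ≤ ENNReal.ofReal (pkTerm b c₁ c₂ C₁ C₂ k j)) →
      mQ {z | (0 : ℤ) ∈ zone Z (fun j => H786.s0 b k * 2 ^ j) (P z)} ≤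
        ENNReal.ofReal (2 * Real.exp (-(c₁ * c₂ / 8) * (Real.log k) ^ 2)) := by
  intro P hP h
  refine (hP.measure_zone_le (mp_Tz k) Z (fun j => H786.s0 b k * 2 ^ j)).trans ?_
  refine le_trans (ENNReal.tsum_le_tsum fun j => ?_) h1
  calc ((2 * Z * (H786.s0 b k * 2 ^ j) + 1 : ℕ) : ℝ≥0∞) * mQ {z | P z 0 j}
      ≤ ENNReal.ofReal ((2 * Z * (H786.s0 b k * 2 ^ j) + 1 : ℕ) : ℝ) *
          ENNReal.ofReal (pkTerm b c₁ c₂ C₁ C₂ k j) := by
        rw [ENNReal.ofReal_natCast]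
        gcongr
        exact h j
    _ = ENNReal.ofReal (((2 * Z * (H786.s0 b k * 2 ^ j) + 1 : ℕ) : ℝ) *
          pkTerm b c₁ c₂ C₁ C₂ k j) := (ENNReal.ofReal_mul (Nat.cast_nonneg _)).symm
    _ ≤ _ := ENNReal.ofReal_le_ofReal (weight_le h3 h2 j)

end

section
open Finset MeasureTheory Filter
open Vale.Agent.P108 Vale.Agent.P108.Dyn Vale.Agent.P108.H504 Vale.Agent.P108.H786
  Vale.Agent.P108.Area Vale.Agent.P108.Sk P108C Vale.Agent.P108.H442

theorem numX {k : ℝ} (H : Huge k) : Num k cz cb := by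
  set c1 := cz with hc1'
  set b := cb with hb'
  have hc1 : 0 < c1 := cz_pos
  have hb0 : 0 ≤ b := by rw [hb']; norm_num
  have h2 : (2 : ℝ) ≤ k := H.ge (by norm_num)
  have h8 : 8 ≤ k ^ (1 / 2 : ℝ) := H.le_rpow (by norm_num) (by norm_num)
  have h9 : 9 ≤ k ^ (8 / 10 : ℝ) := H.le_rpow (by norm_num) (by norm_num)
  have hs : 36 * 3 ≤ k ^ (13 / 10 : ℝ) := H.le_rpow (by norm_num) (by norm_num)
  have hr : 192 / c1 * 3 ≤ k ^ (12 / 10 : ℝ) := by
    refine H.le_rpow (by norm_num) ?_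
    have h1 : 192 / c1 ≤ 192 / (1 / 3600) := div_le_div_of_nonneg_left (by norm_num) (by norm_num) cz_ge
    linarith
  have hlog : Real.log 8 * 100000 ≤ Real.log k := by
    have := Real.log_le_sub_one_of_pos (show (0 : ℝ) < 8 by norm_num)
    linarith [H.x]
  have h1 : c1 * k ^ (b - 1) ≤ 1 := by
    have := cz_small H le_rfl
    rw [div_one] at this
    exact this.le
  have hk0 : 0 < k := by linarith
  have hsq : Real.sqrt (8 * k) ≤ 3 * k ^ (1 / 2 : ℝ) := by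
    rw [← Real.sqrt_eq_rpow]
    have : Real.sqrt (8 * k) = Real.sqrt 8 * Real.sqrt k := Real.sqrt_mul (by norm_num) k
    rw [this]
    refine mul_le_mul_of_nonneg_right ?_ (Real.sqrt_nonneg _)
    rw [Real.sqrt_le_left (by norm_num)]; norm_num
  have e2 : (k ^ (9 / 10 : ℝ)) ^ 2 = k ^ (18 / 10 : ℝ) := by
    rw [← Real.rpow_natCast, ← Real.rpow_mul hk0.le]; norm_num
  have e3 : (k ^ (9 / 10 : ℝ)) ^ 3 = k ^ (27 / 10 : ℝ) := by
    rw [← Real.rpow_natCast, ← Real.rpow_mul hk0.le]; norm_num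
  refine ⟨h2, h8, ?_, ?_, ?_, h1, ?_⟩
  · rw [e2]
    have : k ^ (18 / 10 : ℝ) = k ^ (8 / 10 : ℝ) * k := by
      rw [← Real.rpow_add_one hk0.ne']; norm_num
    rw [this]
    nlinarith
  · rw [e2]
    have : k ^ (18 / 10 : ℝ) = k ^ (13 / 10 : ℝ) * k ^ (1 / 2 : ℝ) := by
      rw [← Real.rpow_add hk0]; norm_num
    rw [this]
    have h5 : 0 ≤ k ^ (1 / 2 : ℝ) := by positivity
    nlinarith
  · rw [e3]
    have e4 : 192 / (c1 * k ^ (b - 1)) = 192 / c1 * k ^ (1 - b) := by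
      have : k ^ (1 - b) = (k ^ (b - 1))⁻¹ := by
        rw [← Real.rpow_neg hk0.le]; congr 1; ring
      rw [this]
      field_simp
    rw [e4]
    have h5 : k ^ (27 / 10 : ℝ) = k ^ (12 / 10 : ℝ) * (k ^ (1 : ℝ) * k ^ (1 / 2 : ℝ)) := by
      rw [← Real.rpow_add hk0, ← Real.rpow_add hk0]; norm_num
    have h6 : k ^ (1 - b) ≤ k ^ (1 : ℝ) :=
      Real.rpow_le_rpow_of_exponent_le (by linarith) (by linarith)
    have h7 : 0 ≤ k ^ (1 / 2 : ℝ) := by positivity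
    have h8' : 0 ≤ k ^ (1 - b) := by positivity
    rw [h5]
    calc 192 / c1 * k ^ (1 - b) * Real.sqrt (8 * k)
        ≤ 192 / c1 * k ^ (1 - b) * (3 * k ^ (1 / 2 : ℝ)) :=
          mul_le_mul_of_nonneg_left hsq (by positivity)
      _ = (192 / c1 * 3) * (k ^ (1 - b) * k ^ (1 / 2 : ℝ)) := by ring
      _ ≤ (192 / c1 * 3) * (k ^ (1 : ℝ) * k ^ (1 / 2 : ℝ)) :=
          mul_le_mul_of_nonneg_left (mul_le_mul_of_nonneg_right h6 h7) (by positivity)
      _ ≤ _ := mul_le_mul_of_nonneg_right hr (by positivity)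
  · have := Real.log_nonneg (by norm_num : (1 : ℝ) ≤ 8)
    linarith

theorem lineX {k : ℝ} (H : Huge k) : ∀ s ∈ Set.Icc (0 : ℝ) 1, ∀ (R : ℕ) (m n i j : ℤ)
    (S : Finset ℤ) (c : ℝ), Sk.s0 k ≤ R → c ∈ Set.Ico (0 : ℝ) 1 →
    volume {t | t ∈ Set.Ico (0 : ℝ) 1 ∧ PeakPat k s (ao k (Area.pt k m (c, t))) R m n i j S} ≤
      ENNReal.ofReal (3 * (1 - (cz * k ^ (cb - 1)) / 24) ^ (R / 48 / 2)) := by
  intro s hs R m n i j S c hR hc
  have hc₁ := cz_pos
  have hz : ZoneAt k cz cb cβ := H850.zoneAt (by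
    rw [← pow_mul]
    exact H.pow_ge (by norm_num) _ (by norm_num))
  have hn := numX H
  have ht1 : 8 ≤ k ^ (1 / 10 : ℝ) := H.le_rpow (by norm_num) (by norm_num)
  have ht2 : (10000 : ℝ) ≤ k ^ (49 / 50 : ℝ) := H.le_rpow (by norm_num) (by norm_num)
  have ht3 : 1 ≤ Real.log k := le_trans (by norm_num) H.x
  have kpos := hn.k0
  have hk1 : 1 ≤ k := by linarith [hn.k2]
  have hs0 : 10000 ≤ Sk.s0 k := by
    have h1 : (10000 : ℝ) ≤ k ^ (1 - cb) * Real.log k ^ 2 := by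
      have e : (1 : ℝ) - cb = 49 / 50 := by norm_num
      rw [e]
      nlinarith
    have h2 : k ^ (1 - cb) * Real.log k ^ 2 ≤ (Sk.s0 k : ℝ) := Nat.le_ceil _
    have h3 := h1.trans h2
    exact_mod_cast h3
  set T : Set ℝ := {t | t ∈ Set.Ico (0 : ℝ) 1 ∧
    PeakPat k s (ao k (Area.pt k m (c, t))) R m n i j S} with hT
  rcases T.eq_empty_or_nonempty with hE | ⟨t0, ht0⟩
  · rw [hE, measure_empty]; exact bot_le
  have P0 := ht0.2
  have hRR : 10000 ≤ R := hs0.trans hR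
  have hRr : (10000 : ℝ) ≤ R := by exact_mod_cast hRR
  have hcP : ((cP : ℕ) : ℤ) = 1000000 := rfl
  have hobj := P0.obj
  rw [hcP] at hobj
  have hmn := P0.hmn
  have hi1 := P0.i1
  have hi2 := P0.i2
  have hj1 := P0.j1
  have hj2 := P0.j2
  refine slice hn hc₁ hz ht1 (m := m) (i' := i) (j' := j) hRR
    (G := {r | n < r ∧ r < j ∧
      ∀ y : ℕ, 1 ≤ y → r + y ≤ j → (ms (↑S) (r + 1) (r + 1 + y) : ℝ) < c0 * y})
    (G' := {p | i < p ∧ p < m ∧
      ∀ y : ℕ, 1 ≤ y → i ≤ p - y → (ms (↑S) (p - y) p : ℝ) < c0 * y})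
    (by omega) (by omega) (by omega) (by omega)
    (by
      convert count_right hRR P0.hmn P0.obj P0.j1 P0.j2 P0.spR _ (fun r h1 h2 h3 => ?_) using 1
      exact ⟨h1, h2, h3⟩)
    (by
      convert count_left hRR P0.i1 P0.i2 P0.spL _ (fun r h1 h2 h3 => ?_) using 1
      exact ⟨h1, h2, h3⟩) c (fun t ht => ht.1) ?_
  intro t ht
  have P := ht.2
  set a := ao k (Area.pt k m (c, t)) with ha
  have hs1 : 1 ≤ 1 + s := by linarith [hs.1]
  have hmono : ∀ x : ℝ, 0 ≤ x → k ^ ((1 - 1 / 1000) * x) ≤ (1 + s) * k ^ ((1 - cd) * x) := by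
    intro x hx
    have h1 : k ^ ((1 - 1 / 1000) * x) ≤ k ^ ((1 - cd) * x) := by
      refine Real.rpow_le_rpow_of_exponent_le hk1 ?_
      have : (1 - 1 / 1000 : ℝ) ≤ 1 - cd := by norm_num
      exact mul_le_mul_of_nonneg_right this hx
    have h2 : 0 ≤ k ^ ((1 - cd) * x) := by positivity
    exact h1.trans (le_mul_of_one_le_left h2 hs1)
  have hcone : ∀ X Y : ℝ, 0 ≤ X → (1 + s) * (k ^ (cβ / 2) * X) ≤ Y → X ≤ k ^ (-cβ / 2) * Y := by
    intro X Y hX h
    have h1 : k ^ (cβ / 2) * X ≤ Y := by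
      have h0 : 0 ≤ k ^ (cβ / 2) * X := by positivity
      exact (le_mul_of_one_le_left h0 hs1).trans h
    have h2 : k ^ (-cβ / 2) * (k ^ (cβ / 2) * X) ≤ k ^ (-cβ / 2) * Y :=
      mul_le_mul_of_nonneg_left h1 (by positivity)
    rw [← mul_assoc, ← Real.rpow_add kpos] at h2
    have e : -cβ / 2 + cβ / 2 = (0 : ℝ) := by ring
    rwa [e, Real.rpow_zero, one_mul] at h2
  refine ⟨?_, ?_, ?_, ?_, ?_⟩
  · have h1 := P.grR
    unfold Low at h1
    simp only [Dec.num, Dec.den, not_lt] at h1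
    refine (hmono _ ?_).trans h1
    have : 0 ≤ j + 1 - m := by omega
    exact_mod_cast this
  · have h1 := P.grL
    unfold Low at h1
    simp only [Dec.num, Dec.den, not_lt] at h1
    have e : m - 2 + 1 - i = m - 1 - i := by ring
    rw [e] at h1
    refine (hmono _ ?_).trans h1
    have : 0 ≤ m - 1 - i := by omega
    exact_mod_cast this
  · intro r hr
    have h1 := P.coneR r hr.1 hr.2.1 hr.2.2
    unfold Low at h1
    simp only [Dec.num, Dec.den, not_lt] at h1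
    have e : r + 1 + 1 = r + 2 := by ring
    rw [e] at h1
    exact hcone _ _ (abs_nonneg _) h1
  · intro p hp
    have h1 := P.coneL p hp.1 hp.2.1 hp.2.2
    unfold Low at h1
    simp only [Dec.num, Dec.den, not_lt] at h1
    have e : p - 1 - 1 = p - 2 := by ring
    rw [e] at h1
    exact hcone _ _ (abs_nonneg _) h1
  · have h1 := P.deep
    unfold Low at h1
    simp only [Dec.num, Dec.den] at h1
    refine h1.le.trans ?_
    rw [← mul_assoc]
    refine mul_le_mul_of_nonneg_right ?_ (by positivity)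
    have h2 : (1 : ℝ) + s ≤ k ^ (1 / 100 * (R : ℝ)) := by
      have h3 : k ^ (1 : ℝ) ≤ k ^ (1 / 100 * (R : ℝ)) :=
        Real.rpow_le_rpow_of_exponent_le hk1 (by linarith)
      rw [Real.rpow_one] at h3
      linarith [hs.2, hn.k2]
    calc (1 + s) * k ^ (-(ca * (R : ℝ))) ≤ k ^ (1 / 100 * (R : ℝ)) * k ^ (-(ca * (R : ℝ))) :=
          mul_le_mul_of_nonneg_right h2 (by positivity)
      _ = k ^ (-(59 / 100) * (R : ℝ)) := by
          rw [← Real.rpow_add kpos]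
          congr 1
          have : (ca : ℝ) = 3 / 5 := rfl
          rw [this]; ring

end

section
open MeasureTheory Filter Set Topology
open scoped ENNReal
open Vale.Agent.P108 Vale.Agent.P108.Dyn Vale.Agent.P108.H786 Vale.Agent.P108.Area P108C
open Vale.Agent.P108.Por hiding s0

theorem peakX {k : ℝ} (H : Huge k) : ∀ s ∈ Icc (0 : ℝ) 1, ∀ l : ℕ,
    mQ {z | ∃ n i j, Sk.Peak k s (ao k z) (Sk.s0 k * 2 ^ l) 0 n i j} ≤
      ENNReal.ofReal (Por.pkTerm Sk.cb (cz / 24) (1 / 96) 6 3 k l) := by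
  intro s hs l
  have hc := cz_pos
  have hk2 : cz * k ^ (Sk.cb - 1) ≤ 1 := by
    have := cz_small H le_rfl
    rw [div_one] at this
    exact this.le
  have hk3 : 1 < k := lt_of_lt_of_le one_lt_two (H.ge (by norm_num))
  have hline := lineX H s hs
  have hs0 : 1 ≤ Sk.s0 k := by
    change 1 ≤ H786.s0 Sk.cb k
    unfold H786.s0
    rw [Nat.one_le_ceil_iff]
    have : 0 < Real.log k := Real.log_pos hk3
    positivity
  set R : ℕ := Sk.s0 k * 2 ^ l with hR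
  have hRs : Sk.s0 k ≤ R := by
    rw [hR]; exact Nat.le_mul_of_pos_right _ (by positivity)
  have hmeas : MeasurableSet {z | ∃ n i j, Sk.Peak k s (ao k z) R 0 n i j} := by
    have e : {z | ∃ n i j, Sk.Peak k s (ao k z) R 0 n i j} =
        ⋃ n : ℤ, ⋃ i : ℤ, ⋃ j : ℤ, {z | Sk.Peak k s (ao k z) R 0 n i j} := by
      ext z; simp only [mem_ofPred_eq, mem_iUnion]
    rw [e]
    exact MeasurableSet.iUnion fun n => MeasurableSet.iUnion fun i => MeasurableSet.iUnion fun j =>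
      measurableSet_peak k s R 0 n i j
  refine peak_mass_le (m := 0) hk3 hR (per_of_ao k fun a => ∃ n i j, Sk.Peak k s a R 0 n i j)
    hmeas (fun n i j S => {z | Sk.PeakPat k s (ao k z) R 0 n i j S}) ?_ hc hk2 ?_
  · rintro z ⟨n, i, j, S, hS, hp⟩
    have h1 := hp.hmn
    have h2 := hp.obj
    have h3 := hp.i1
    have h4 := hp.i2
    have h5 := hp.j1
    have h6 := hp.j2
    have h7 : (Sk.cP : ℤ) = 1000000 := rfl
    rw [h7] at h2
    exact ⟨n, i, j, S, h1, by omega, by omega, by omega, by omega, by omega, mem_patterns.1 hS, hp⟩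
  · intro n i j S _ _ _ _ _ _ _ c hcc
    exact hline R 0 n i j S c hRs hcc

end

section
open MeasureTheory Filter Set Topology
open scoped ENNReal
open Vale.Agent.P108 Vale.Agent.P108.Dyn Vale.Agent.P108.H786 P108C
open Vale.Agent.P108.Sk

theorem eX {k : ℝ} (H : Huge k) : ∀ s ∈ Icc (0 : ℝ) 1,
    mQ.real {z | (0 : ℤ) ∈ Eset k s (ao k z)} ≤ k ^ (-(1 / 20000) : ℝ) := by
  intro s hs
  have hk3 : 3 ≤ k := H.ge (by norm_num)
  have hk1 : 1 ≤ k := by linarith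
  have g1 : 6 * (404000001 + 1608) * k ^ (-(2 * (1 / 20000)) : ℝ) ≤ k ^ (-(1 / 20000) : ℝ) :=
    H.ev_le (le_trans (by norm_num) (H.npow_le (c := 10) (by norm_num) (by norm_num) 10 (by norm_num)))
  have g2 : 2 * Real.exp (-(cz / 24 * (1 / 96) / 8) * Real.log k ^ 2) ≤
      2 * k ^ (-(1 / 10000) : ℝ) := by
    rw [H.rpow_eq]
    refine mul_le_mul_of_nonneg_left (Real.exp_le_exp.2 ?_) (by norm_num)
    have h1 := cz_ge
    have h2 := H.x
    have h3 : 1 / 10000 ≤ cz / 24 * (1 / 96) / 8 * Real.log k := by nlinarith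
    have h4 := mul_le_mul_of_nonneg_right h3 H.log_pos.le
    nlinarith
  have g3 := zoneX 6 3 cZ (sumX H) (cz_small H (by norm_num)).le (by linarith)
  have g4 : Real.log k ^ 2 ≤ k ^ (1 / 200 : ℝ) := by
    have := H.log_sq_le (y := 1 / 200) (C := 1) (by norm_num) (by norm_num) (by norm_num)
    rwa [one_mul] at this
  have hk0 : 0 < k := by linarith
  have hτ0 : 0 ≤ (1 + s) * k ^ cβ := by
    have := hs.1
    positivity
  have hτ1 : 0 ≤ (1 + s) * k ^ (1 - ce) := by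
    have := hs.1
    positivity
  have hlog1 : 1 ≤ Real.log k := by
    rw [Real.le_log_iff_exp_le hk0]
    linarith [Real.exp_one_lt_d9]
  have hs0 : 1 ≤ Sk.s0 k := by
    have h1 : (1 : ℝ) ≤ Sk.s0 k := by
      refine le_trans ?_ (Nat.le_ceil _)
      have e1 : (1 : ℝ) ≤ k ^ (1 - cb) := Real.one_le_rpow hk1 (by norm_num)
      nlinarith
    exact_mod_cast h1
  have hcr := mass_zone_crit hk1 hτ0 cZ (fun l => Sk.s0 k * 2 ^ l)
  have hde := mass_zone_dense hk1 hτ1 (δ := cδ) (by norm_num) cZ (R := fun l => Sk.s0 k * 2 ^ l)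
    (fun j => Nat.one_le_iff_ne_zero.2 (by positivity))
  have hpk : mQ.real {z | (0 : ℤ) ∈ zone cZ (fun l => Sk.s0 k * 2 ^ l) (pkP k s z)} ≤
      2 * k ^ (-(1 / 10000) : ℝ) := by
    have h1 := g3 (pkP k s) (equiP_pk k s) (fun l => peakX H s hs l)
    rw [measureReal_def]
    exact (ENNReal.toReal_le_of_le_ofReal (by positivity) h1).trans g2
  have h3 : mQ.real {z | (0 : ℤ) ∈ Eset k s (ao k z)} ≤
      mQ.real ({z | (0 : ℤ) ∈ zone cZ (fun l => Sk.s0 k * 2 ^ l) (critP k ((1 + s) * k ^ cβ) z)} ∪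
        {z | (0 : ℤ) ∈ zone cZ (fun l => Sk.s0 k * 2 ^ l) (dense cδ (fun l => Sk.s0 k * 2 ^ l)
          (small k ((1 + s) * k ^ (1 - ce)) z))} ∪
        {z | (0 : ℤ) ∈ zone cZ (fun l => Sk.s0 k * 2 ^ l) (pkP k s z)}) :=
    measureReal_mono fun z hz => eset_subset k s z hz
  have h5 := h3.trans ((measureReal_union_le _ _).trans
    (add_le_add (measureReal_union_le _ _) le_rfl))
  -- constants
  have hA : (1 + s) * k ^ (1 - ce) / k ≤ 2 * k ^ (-(1 / 10000) : ℝ) := ncthr_le hk1 hs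
  have hB : (2 * (cZ : ℝ) * ((Sk.s0 k * 2 ^ 0 : ℕ) : ℝ) + 1) * ((1 + s) * k ^ cβ / k) ≤
      1608 * k ^ (-(1 / 10000) : ℝ) := by
    have h7 : (1 : ℝ) ≤ k ^ (197 / 200 : ℝ) := Real.one_le_rpow hk1 (by norm_num)
    have e1 : (Sk.s0 k : ℝ) ≤ 2 * k ^ (197 / 200 : ℝ) := by
      have h6 : (Sk.s0 k : ℝ) < k ^ (1 - cb) * Real.log k ^ 2 + 1 :=
        Nat.ceil_lt_add_one (by positivity)
      have h8 : k ^ (1 - cb) * Real.log k ^ 2 ≤ k ^ (197 / 200 : ℝ) := by
        calc k ^ (1 - cb) * Real.log k ^ 2 ≤ k ^ (1 - cb) * k ^ (1 / 200 : ℝ) :=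
              mul_le_mul_of_nonneg_left g4 (by positivity)
          _ = k ^ (197 / 200 : ℝ) := by
              rw [← Real.rpow_add hk0]; norm_num
      have h9 : (Sk.s0 k : ℝ) ≤ k ^ (197 / 200 : ℝ) + 1 := h6.le.trans (add_le_add h8 le_rfl)
      linarith
    have e2 : (2 * (cZ : ℝ) * ((Sk.s0 k * 2 ^ 0 : ℕ) : ℝ) + 1) ≤ 402 * k ^ (197 / 200 : ℝ) := by
      have h8 : ((cZ : ℕ) : ℝ) = 100 := by norm_num
      rw [h8, pow_zero, mul_one]
      linarith
    have e3 : (1 + s) * k ^ cβ / k ≤ 2 * k ^ (-(99 / 100) : ℝ) := by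
      rw [div_le_iff₀ hk0]
      have h6 : k ^ (-(99 / 100) : ℝ) * k = k ^ (1 / 100 : ℝ) := by
        rw [← Real.rpow_add_one hk0.ne']; norm_num
      rw [mul_assoc, h6]
      have h7 : 0 < k ^ (1 / 100 : ℝ) := by positivity
      exact mul_le_mul_of_nonneg_right (by linarith [hs.2]) h7.le
    have e4 : k ^ (197 / 200 : ℝ) * k ^ (-(99 / 100) : ℝ) ≤ k ^ (-(1 / 10000) : ℝ) := by
      rw [← Real.rpow_add hk0]
      exact Real.rpow_le_rpow_of_exponent_le hk1 (by norm_num)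
    have e5 : 0 ≤ (1 + s) * k ^ cβ / k := div_nonneg hτ0 hk0.le
    calc _ ≤ (402 * k ^ (197 / 200 : ℝ)) * (2 * k ^ (-(99 / 100) : ℝ)) :=
          mul_le_mul e2 e3 e5 (by positivity)
      _ = 804 * (k ^ (197 / 200 : ℝ) * k ^ (-(99 / 100) : ℝ)) := by ring
      _ ≤ 804 * k ^ (-(1 / 10000) : ℝ) := mul_le_mul_of_nonneg_left e4 (by norm_num)
      _ ≤ 1608 * k ^ (-(1 / 10000) : ℝ) :=
          mul_le_mul_of_nonneg_right (by norm_num) (by positivity)
  have hC : (1 + 4 * ((cZ : ℝ) + 1) / cδ) * ((1 + s) * k ^ (1 - ce) / k) ≤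
      404000001 * (2 * k ^ (-(1 / 10000) : ℝ)) := by
    have h8 : (1 + 4 * (((cZ : ℕ) : ℝ) + 1) / cδ) = 404000001 := by norm_num
    rw [h8]
    exact mul_le_mul_of_nonneg_left hA (by norm_num)
  have e0 : (-(2 * (1 / 20000)) : ℝ) = -(1 / 10000) := by norm_num
  rw [e0] at g1
  have hpos : 0 < k ^ (-(1 / 10000) : ℝ) := by positivity
  have h6 := hcr.trans hB
  have h7 := hde.trans hC
  generalize k ^ (-(1 / 10000) : ℝ) = B at *
  generalize k ^ (-(1 / 20000) : ℝ) = B' at *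
  linarith

end

end Vale.Agent.N108X
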