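import Vale.Agent.N108X.BlkA

/-!
# P108: growth, decorrelation and the mass of the bad set with the explicit threshold
-/

set_option linter.all false

namespace Vale.Agent.N108X

section
open Set P108C
open Vale.Agent.P108 Vale.Agent.P108.H504

theorem growX {k : ℝ} (H : Huge k) : ∀ (s : ℝ) (a : ℤ → ℝ) (u w : ℤ) (X : Set ℤ),
    Sk.Setting k s a u w X → ∀ i j, u ≤ i → i ≤ j → j < w → Sk.GoodWin X i j →
    ((∀ y : ℕ, 1 ≤ y → i + y ≤ j + 1 → (ms X (j + 1 - y) (j + 1) : ℝ) ≤ Sk.c1 * y ∧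
        (ms (Sk.NC k s a) (j + 1 - y) (j + 1) : ℝ) < 1 / 20 * y) →
      ∀ m, i ≤ m → m ≤ j + 1 →
        k ^ (9 / 10 * ((j + 1 - m : ℤ) : ℝ)) * |Sk.D a i (m - 1)| ≤ |Sk.D a i j|) ∧
    ((∀ y : ℕ, 1 ≤ y → i + y ≤ j + 1 → (ms X i (i + y) : ℝ) ≤ Sk.c1 * y ∧
        (ms (Sk.NC k s a) i (i + y) : ℝ) < 1 / 20 * y) →
      ∀ m, i ≤ m → m ≤ j + 1 →
        k ^ (9 / 10 * ((m - i : ℤ) : ℝ)) * |Sk.D a m j| ≤ |Sk.D a i j|) := by
  intro s a u w X hS i j hui hij hjw hgood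
  obtain ⟨Λ, hΛ, hyp⟩ : ∃ Λ : ℕ, Λ ≤ 10 ^ 8 ∧ H462.Hyp a X (9 * k) Λ Sk.c0 i (j + 1) :=
    ⟨2000000, by norm_num, H462.hyp_of_setting H.big hS hui (show j + 1 ≤ w by omega)
      (H462.good_of_goodWin hgood)⟩
  have hk2 : (2 : ℝ) ^ 400 ≤ k := H.pow_ge (by norm_num) 400 (by norm_num)
  have h21 : (1 : ℝ) ≤ 2 ^ 400 := one_le_pow₀ (by norm_num)
  have hk1 : 1 ≤ k := h21.trans hk2
  obtain ⟨n1, n2, n3, n4, n5, n6, n7, n8⟩ := grow_numerics hk2 hS.hs0
  have hc0 : Sk.c0 < 1 := by unfold Sk.c0; norm_num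
  have hc1 : 0 < Sk.c1 := by unfold Sk.c1 Sk.cc; norm_num
  have hcc : 10 * (60 : ℕ) * Sk.c1 ≤ Sk.c0 := by unfold Sk.c1 Sk.cc Sk.c0; norm_num
  have hg : ∀ t, i ≤ t → t < j + 1 → t ∉ X → 16 ≤ |a t| := by
    intro t h1 h2 h3
    by_contra hcon
    have h4 : t ∈ Sk.Crit k s a := by
      change |a t| < (1 + s) * k ^ Sk.cβ
      have : (16 : ℝ) ≤ k ^ Sk.cβ := n1
      have h5 := hS.hs0
      push Not at hcon
      nlinarith only [this, h5, hcon]
    apply h3
    apply hS.bad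
    refine ⟨⟨t, Sk.s0 k, Or.inl ⟨rfl, h4⟩, by simp⟩, ?_, ?_⟩
    · omega
    · omega
  have hB : ∀ t, i ≤ t → t < j + 1 → |a t| + 1 ≤ 9 * k := by
    intro t _ _
    linarith only [hS.bd t, hk1]
  have hΛ' : ((200 : ℕ) : ℝ) * Λ * Sk.c1 ≤ ((1 : ℕ) : ℝ) := by
    have : (Λ : ℝ) ≤ 10 ^ 8 := by exact_mod_cast hΛ
    unfold Sk.c1 Sk.cc
    push_cast
    linarith only [this]
  set L := (1 + s) * k ^ (1 - Sk.ce) / 2 with hL
  have hNC : {t | |a t| < 2 * L} = Sk.NC k s a := by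
    ext t
    change |a t| < 2 * L ↔ |a t| < (1 + s) * k ^ (1 - Sk.ce)
    have e : 2 * L = (1 + s) * k ^ (1 - Sk.ce) := by rw [hL]; ring
    rw [e]
  have hcount : ∀ x y n : ℕ, 1 ≤ n → (x : ℝ) ≤ Sk.c1 * n → (y : ℝ) < 1 / 20 * n →
      (200 * (x + y : ℕ) : ℤ) ≤ 11 * n := by
    intro x y n hn hx hy
    have h1 : (200 * (x + y : ℕ) : ℝ) ≤ 11 * n := by
      have hnn : (1 : ℝ) ≤ n := by exact_mod_cast hn
      unfold Sk.c1 Sk.cc at hx
      push_cast
      norm_num at hx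
      linarith only [hx, hy, hnn]
    exact_mod_cast h1
  constructor
  · intro hend m hm1 hm2
    have hsuf : Suf a i (j + 1 - 1) (k ^ (-(905 / 1000) : ℝ)) 2 := by
      refine suf_of_hyp' (B := 9 * k) (L := L) (E := k ^ (93 / 100 : ℝ)) (c0 := Sk.c0)
        (c1 := Sk.c1) (Λ := Λ) (K := 200) (Ka := 11) (Kb := 1) (N0 := 60) hyp (by omega) hc0
        (by norm_num) (by norm_num) (by norm_num) hg hB (by linarith only [hk1]) hc1 hcc
        (fun r hr1 hr2 => (hend r hr1 (by omega)).1)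
        (fun r hr1 hr2 => (hgood r hr1 hr2).1) hΛ' (fun t ht1 ht2 => ?_) n2 n3 n4 n5 n6 n7
      obtain ⟨n, hn⟩ : ∃ n : ℕ, (n : ℤ) = j + 1 - t := ⟨(j + 1 - t).toNat, by omega⟩
      have h1 := hend n (by omega) (by omega)
      have e : j + 1 - (n : ℤ) = t := by omega
      rw [e] at h1
      rw [hNC, ← hn]
      exact hcount _ _ n (by omega) h1.1 h1.2
    rw [add_sub_cancel_right] at hsuf
    obtain ⟨n, hn⟩ : ∃ n : ℕ, (n : ℤ) = j + 1 - m := ⟨(j + 1 - m).toNat, by omega⟩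
    have h1 := hsuf.2 m hm1 hm2
    have e : (j + 1 - m).toNat = n := by omega
    rw [e] at h1
    rw [← hn]
    refine grow_final hk1 n8 h1 (fun h0 => ?_) (abs_nonneg _)
    have : m - 1 = j := by omega
    rw [this]
  · intro hend m hm1 hm2
    have hpre : Pre a i (j + 1 - 1) (k ^ (-(905 / 1000) : ℝ)) 2 := by
      refine pre_of_hyp' (B := 9 * k) (L := L) (E := k ^ (93 / 100 : ℝ)) (c0 := Sk.c0)
        (c1 := Sk.c1) (Λ := Λ) (K := 200) (Ka := 11) (Kb := 1) (N0 := 60) hyp (by omega) hc0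
        (by norm_num) (by norm_num) (by norm_num) hg hB (by linarith only [hk1]) hc1 hcc
        (fun r hr1 hr2 => (hend r hr1 hr2).1)
        (fun r hr1 hr2 => (hgood r hr1 (by omega)).2) hΛ' (fun t ht1 ht2 => ?_) n2 n3 n4 n5 n6 n7
      obtain ⟨n, hn⟩ : ∃ n : ℕ, (n : ℤ) = t - i := ⟨(t - i).toNat, by omega⟩
      have h1 := hend n (by omega) (by omega)
      have e : i + (n : ℤ) = t := by omega
      rw [e] at h1
      rw [hNC, ← hn]
      exact hcount _ _ n (by omega) h1.1 h1.2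
    rw [add_sub_cancel_right] at hpre
    obtain ⟨n, hn⟩ : ∃ n : ℕ, (n : ℤ) = m - i := ⟨(m - i).toNat, by omega⟩
    have h1 := hpre.2 (m - 1) (by omega) (by omega)
    have e : (m - 1 - i + 1).toNat = n := by omega
    rw [e, sub_add_cancel] at h1
    rw [← hn]
    refine grow_final hk1 n8 h1 (fun h0 => ?_) (abs_nonneg _)
    have : m = i := by omega
    rw [this]

end

section
open Set MeasureTheory
open scoped Classical ENNReal
open P108C Vale.Agent.P108 Vale.Agent.P108.Dyn Vale.Agent.P108.H786 Vale.Agent.P108.H504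
  Vale.Agent.P108.Area
open Vale.Agent.P108.H972

theorem decorX {k : ℝ} (H : Huge k) : ∀ s ∈ Icc (0 : ℝ) 1, ∀ N : ℕ,
    mQ.real ({z | (0 : ℤ) ∉ Sk.Bset k s (ao k z) ∧ (∃ r ≤ N, LeftEv Sk.cc (Sk.Bm k s (ao k z)) 0 r) ∧
        (∃ r ≤ N, RightEv Sk.cc (Sk.Bp k s (ao k z)) 0 r)} \ Sk.Nset k s) ≤
      72000 * mQ.real {z | ∃ r ≤ N, LeftEv Sk.cc (Sk.Bm k s (ao k z)) 0 r} *
        mQ.real {z | ∃ r ≤ N, RightEv Sk.cc (Sk.Bp k s (ao k z)) 0 r} := by
  intro s hs N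
  have hL := Sk.longCl
  have hk10 : 10 ^ 10 ≤ k := H.ge (by norm_num)
  have hF : ∀ s ∈ Icc (0 : ℝ) 1, ∀ z z' : ℝ × ℝ, z ∉ Sk.Near k s →
      ∀ (o : ℤ) (R : ℕ), (o + Sk.cZ * R < 0 ∨ 0 < o - Sk.cZ * R) →
      (∀ t : ℤ, |t - o| ≤ 2 * R → |orb k z' t - orb k z t| ≤ k ^ (-(|(t : ℝ)| / 2))) →
      (Sk.Defect k s (ao k z) o R ↔ Sk.Defect k s (ao k z') o R) :=
    fun _ hs _ _ hz _ _ hside hcl =>
      H18.freeze (H.pow_ge (by norm_num) 40 (by norm_num)) hs hz hside hcl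
  have hccpos : (0 : ℝ) < Sk.cc := by norm_num
  have hcc40 : 40 * Sk.cc ≤ Sk.c0 := by norm_num
  have hR : ∀ (z : ℝ × ℝ) (o : ℤ) (j : ℕ), DP k s z o j → 2 ≤ id j := fun z o j h =>
    (two_le_s0 hk10).trans h.s0_le
  have hE : ∀ z ∈ (Sk.Nset k s)ᶜ, (0 : ℤ) ∉ Sk.Eset k s (ao k z) := fun z hz h =>
    hz (Or.inl (Or.inl h))
  have hM : ∀ z ∈ (Sk.Nset k s)ᶜ, ¬ Sk.NcMax k s (ao k z) := fun z hz h =>
    hz (Or.inl (Or.inr h))
  have hNr : ∀ z ∈ (Sk.Nset k s)ᶜ, z ∉ Sk.Near k s := fun z hz h => hz (Or.inr h)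
  have hG : Good k (DP k s) id 1 Sk.cZ 2 Sk.cc (Sk.Nset k s)ᶜ := by
    refine ⟨(meas_Nset k s).compl, fun z a b => not_congr (per_Nset k s z a b),
      fun z hz => clean_base hk10 hs.1 (hM z hz), ?_, ?_, ?_, ?_⟩
    · intro z hz z' o j ho hcl
      exact (hF s hs z z' (hNr z hz) o j (Or.inl ho)
        (fun t ht => hcl t (by push_cast; exact ht))).symm
    · intro z hz z' o j ho hcl
      exact (hF s hs z z' (hNr z hz) o j (Or.inr ho)
        (fun t ht => hcl t (by push_cast; exact ht))).symm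
    · refine growL_of_suf (θ := Sk.c0) hccpos hcc40 (by norm_num) (by norm_num) hR ?_
      intro z hz r p hev hr hp1 hp2 hdir
      rw [← Bm_eq] at hev hdir
      have hset := setting_left hL (by linarith) hs (hE z hz) r
      set X := Cl Sk.cc r (Sk.Bm k s (ao k z) ∩ Ico (-(r : ℤ)) 0) with hX
      have hzero : ∀ y : ℕ, 1 ≤ y → p + y ≤ 0 → (ms X (-(y : ℤ)) 0 : ℝ) < Sk.cc * y := by
        intro y hy1 hy2
        have := hev.2.2 y hy1 (by omega)
        simp only [zero_sub] at this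
        exact this
      have hgood : Sk.GoodWin X p (-1) := by
        intro y hy1 hy2
        refine ⟨hdir y hy1 (by omega), ?_⟩
        have h1 := hzero y hy1 (by omega)
        have e1 : (-1 : ℤ) + 1 - y = -(y : ℤ) := by ring
        have e2 : (-1 : ℤ) + 1 = 0 := by ring
        rw [e1, e2]
        refine h1.trans_le ?_
        have : (0 : ℝ) ≤ y := by positivity
        exact mul_le_mul_of_nonneg_right (by norm_num) this
      have hd := (growX H s (ao k z) _ _ X hset p (-1) (by omega) (by omega) (by omega)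
        hgood).1 (fun y hy1 hy2 => ?_)
      · exact suf_of_rate hk10 (by omega) hd
      · have e1 : (-1 : ℤ) + 1 - y = -(y : ℤ) := by ring
        have e2 : (-1 : ℤ) + 1 = 0 := by ring
        rw [e1, e2]
        constructor
        · refine (hzero y hy1 (by omega)).le.trans ?_
          have : (0 : ℝ) ≤ y := by positivity
          exact mul_le_mul_of_nonneg_right (by norm_num) this
        · by_contra hcon
          rw [not_lt] at hcon
          exact hM z hz (Or.inr (Or.inl ⟨y, hy1, hcon⟩))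
    · refine growR_of_pre (θ := Sk.c0) hccpos hcc40 (by norm_num) (by norm_num) hR ?_
      intro z hz r q hev hr hq1 hq2 hdir
      rw [← Bp_eq] at hev hdir
      have hset := setting_right hL (by linarith) hs (hE z hz) r
      set X := Cl Sk.cc r (Sk.Bp k s (ao k z) ∩ Ico 1 (1 + (r : ℤ))) with hX
      have hzero : ∀ y : ℕ, 1 ≤ y → 1 + y ≤ q + 1 → (ms X 1 (1 + y) : ℝ) < Sk.cc * y := by
        intro y hy1 hy2
        have := hev.2.2 y hy1 (by omega)
        simp only [zero_add] at this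
        exact this
      have hgood : Sk.GoodWin X 1 q := by
        intro y hy1 hy2
        refine ⟨?_, hdir y hy1 (by omega)⟩
        refine (hzero y hy1 (by omega)).trans_le ?_
        have : (0 : ℝ) ≤ y := by positivity
        exact mul_le_mul_of_nonneg_right (by norm_num) this
      have hd := (growX H s (ao k z) _ _ X hset 1 q le_rfl (by omega) (by omega)
        hgood).2 (fun y hy1 hy2 => ?_)
      · exact pre_of_rate hk10 (by omega) hd
      · constructor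
        · refine (hzero y hy1 (by omega)).le.trans ?_
          have : (0 : ℝ) ≤ y := by positivity
          exact mul_le_mul_of_nonneg_right (by norm_num) this
        · by_contra hcon
          rw [not_lt] at hcon
          exact hM z hz (Or.inr (Or.inr ⟨y, hy1, hcon⟩))
  have hfin := hG.hdec hk10 (perP_DP k s) (by norm_num) (by norm_num) N
  simp only [← Bm_eq, ← Bp_eq] at hfin
  refine (measureReal_mono ?_).trans hfin
  rintro z ⟨⟨_, h2, h3⟩, h4⟩
  exact ⟨h4, h2, h3⟩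

end

section
open Set P108C
open Vale.Agent.P108 Vale.Agent.P108.H462 Vale.Agent.P108.H954
open Vale.Agent.P108.Sk (cβ ce cδ cd ca cP c0 cc cZ s0 Low Crit NC Peak Defect Bset Setting GoodWin
  LongZ DetCone)

theorem robustX {k : ℝ} (H : Huge k) : ∀ (s : ℝ) (a a' : ℤ → ℝ) (u w : ℤ) (X : Set ℤ),
    Setting k s a u w X →
    (∀ t, u ≤ t → t < w → |a' t| + 1 ≤ 9 * k) →
    (∀ t, u ≤ t → t < w → |a' t - a t| ≤ 1) →
    (∀ p q i j : ℤ, u ≤ i → i < p → p < q → q < j → j ≤ w → H462.Run X p q → p - 1 ∉ X →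
      j - i ≤ (4000001 : ℕ) * (q - p) → ∀ t, i ≤ t → t < j →
        |a' t - a t| * (9 * k) ^ (4 * 4000001 * (q - p).toNat) ≤ 1) →
    GoodWin X u (w - 1) → H462.Hyp a' X (9 * k) 2000000 Sk.c0 u w := by
  intro s a a' u w X S hb' hclose hrunc hgood
  have hb := H.big
  have hk1 := hb.k1
  have hkpos := hb.k0
  have hB2 : (2 : ℝ) ≤ 9 * k := by linarith
  have hB1 : (1 : ℝ) ≤ 9 * k := by linarith
  have hg := good_of_goodWin hgood
  rw [sub_add_cancel] at hg
  have hcl : ∀ t, u ≤ t → t < w → t ∉ X → 2 * (theP4 k hb).g ≤ |a' t| := by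
    intro t h1 h2 h3
    have h4 := H462.clean_of_notMem S h1 h2 h3
    have hβ := hb.kβ
    have h5 : k ^ cβ ≤ |a t| :=
      (le_mul_of_one_le_left (by linarith) (by linarith [S.hs0])).trans h4
    have h6 := hclose t h1 h2
    have h7 := abs_sub_abs_le_abs_sub (a t) (a' t)
    rw [abs_sub_comm] at h7
    change 2 * (k ^ cβ / 4) ≤ |a' t|
    linarith
  refine hyp_of_nonPeaky2 (theP4 k hb) (n := (w - u).toNat) (I := u) (J := w) (by omega)
    (S.closed _) hcl hb' ?_ le_rfl le_rfl hg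
  intro p q i j hI hJ hpq hrun hpX hqX r1 r2 r3 r4 hL4 hR4 HL HR
  change (radF k (q - p).toNat : ℤ) ≤ p - i at r1
  change p - i ≤ 2 * (radF k (q - p).toNat : ℤ) at r2
  change (radF k (q - p).toNat : ℤ) ≤ j - q at r3
  change j - q ≤ 2 * (radF k (q - p).toNat : ℤ) at r4
  change LG (4 * cc) X i p at hL4
  change RG (4 * cc) X q j at hR4
  change Hyp a' X (9 * k) 2000000 c0 i p at HL
  change Hyp a' X (9 * k) 2000000 c0 q j at HR
  have hℓ1 : 1 ≤ (q - p).toNat := by omega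
  have hrad1 : 1 ≤ radF k (q - p).toNat := (theP k hb).hrad1 _ hℓ1
  obtain ⟨h1, h2, h3, h4⟩ := nonPeaky64 hb S hI hJ hpq hrun hpX hqX r1 r2 r3 r4 hL4 hR4
    (hyp_of_setting hb S hI (by omega) HL.1) (hyp_of_setting hb S (by omega) hJ HR.1)
  have hdep1 : 1 ≤ depF k (q - p).toNat := (theP k hb).hdep1 _ hℓ1
  have hdep2 : 2 * depF k (q - p).toNat ≤ (9 * k) ^ (2000000 * (q - p).toNat) :=
    (theP k hb).hdep2 _ hℓ1
  have hcl2 := hrunc p q i j hI (by omega) hpq (by omega) hJ hrun hpX (by exact_mod_cast h4)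
  change |D a' i p| * |D a' q j| ≤ |D a' i j| * (4 * depF k (q - p).toNat) ∧
    8 * (9 * k) ^ (q - p).toNat * (4 * depF k (q - p).toNat) ≤ (D a' i p) ^ 2 ∧
    8 * (9 * k) ^ (q - p).toNat * (4 * depF k (q - p).toNat) ≤ (D a' q j) ^ 2
  set ℓ := (q - p).toNat with hℓ
  set dep := depF k ℓ with hdep
  set σ : ℝ := ((9 * k) ^ (4 * 4000001 * ℓ))⁻¹ with hσ
  have hσ0 : 0 < σ := by positivity
  have hσ1 : ∀ t, i ≤ t → t < j → |a' t - a t| ≤ σ := by
    intro t ht1 ht2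
    have := hcl2 t ht1 ht2
    rw [hσ, inv_eq_one_div, le_div_iff₀ (by positivity)]
    exact this
  have hwl : j - i ≤ ((4000001 * ℓ : ℕ) : ℤ) := by push_cast; omega
  have hab : ∀ t, i ≤ t → t < j → |a t| + 1 ≤ 9 * k := fun t _ _ => abs_add_one_le hb S t
  have hab' : ∀ t, i ≤ t → t < j → |a' t| + 1 ≤ 9 * k := fun t h1 h2 =>
    hb' t (by omega) (by omega)
  have hsmall : (9 * k) ^ (2 * (4000001 * ℓ)) * σ * (4 * dep) ≤ 1 := by
    have e : (9 * k) ^ (4 * 4000001 * ℓ) =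
        (9 * k) ^ (2 * (4000001 * ℓ)) * (9 * k) ^ (2 * (4000001 * ℓ)) := by
      rw [← pow_add]; congr 1; ring
    have h5 : 4 * dep ≤ (9 * k) ^ (2 * (4000001 * ℓ)) := by
      calc 4 * dep = 2 * (2 * dep) := by ring
        _ ≤ (9 * k) * (9 * k) ^ (2000000 * ℓ) := by gcongr
        _ = (9 * k) ^ (2000000 * ℓ + 1) := by rw [pow_succ]; ring
        _ ≤ (9 * k) ^ (2 * (4000001 * ℓ)) := pow_le_pow_right₀ hB1 (by omega)
    have hp : 0 < (9 * k) ^ (2 * (4000001 * ℓ)) := by positivity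
    rw [hσ, e]
    generalize (9 * k) ^ (2 * (4000001 * ℓ)) = Z at *
    have e2 : Z * (Z * Z)⁻¹ * (4 * dep) = 4 * dep / Z := by
      field_simp
    rw [e2, div_le_one hp]
    exact h5
  have hG1 : (1 : ℝ) ≤ (9 * k) ^ ℓ := one_le_pow₀ hB1
  have hε4 : (9 * k) ^ (2 * (4000001 * ℓ)) * σ ≤ 1 / 4 := by
    have h6 : 0 ≤ (9 * k) ^ (2 * (4000001 * ℓ)) * σ := by positivity
    nlinarith
  have hone : ∀ x : ℝ, 64 * (9 * k) ^ ℓ * dep ≤ x ^ 2 → 1 ≤ |x| := by
    intro x hx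
    by_contra h
    push Not at h
    have h3 : x ^ 2 < 1 := by
      rw [← sq_abs]
      have := abs_nonneg x
      nlinarith
    nlinarith [one_le_mul_of_one_le_of_one_le hG1 hdep1]
  refine ⟨?_, ?_, ?_⟩
  · exact transfer hB2 hσ0.le (by omega) hpq.le (by omega) hwl hab hab' hσ1 hdep1 hsmall
      (hone _ h2) (hone _ h3) h1
  · exact sq_pert hG1 hdep1 h2 (abs_D462_sub_le hB2 hσ0.le (by omega : p - i ≤ _)
      (fun t x y => hab t x (by omega)) (fun t x y => hab' t x (by omega))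
      (fun t x y => hσ1 t x (by omega))) hε4
  · exact sq_pert hG1 hdep1 h3 (abs_D462_sub_le hB2 hσ0.le (by omega : j - q ≤ _)
      (fun t x y => hab t (by omega) y) (fun t x y => hab' t (by omega) y)
      (fun t x y => hσ1 t (by omega) y)) hε4

end

section
open MeasureTheory Filter Set Topology
open scoped ENNReal
open Vale.Agent.P108 Vale.Agent.P108.FT Vale.Agent.P108.Dyn Vale.Agent.P108.H504 P108C
open Vale.Agent.P108.H954
open Vale.Agent.P108.H786 (ao)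
open Vale.Agent.P108.Sk (Setting GoodWin LongCl Bset cc Nset NearBound EBound NcBound EquiB Decor)

theorem massX {k : ℝ} (H : Huge k) : ∃ s ∈ Icc (0 : ℝ) 1,
      Equi (Tz k) (fun z => ClInf cc (Bset k s (ao k z))) ∧
      mQ.real {z | (0 : ℤ) ∈ ClInf cc (Bset k s (ao k z))} ≤ 8 * k ^ (-(1 / 20000) : ℝ) := by
  set F : ℝ → ℝ := fun k => 4 * k ^ (-(1 / 20000) : ℝ) with hF
  set C : ℝ := 72000 with hC
  have hC0 : 0 ≤ C := by norm_num
  have hk0 : 0 < k := H.k0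
  have hk8 : 16 ≤ k := H.ge (by norm_num)
  have h6 : 4 * F k * C * ((1 + cc) ^ 2 / cc ^ 3) ^ 2 ≤ 1 := by
    have h1 : (10 : ℝ) ^ 103 ≤ k ^ (1 / 20000 : ℝ) :=
      H.npow_le (by norm_num) (by norm_num) 103 (by norm_num)
    have h2 : k ^ (-(1 / 20000) : ℝ) ≤ 1 / 10 ^ 103 := by
      rw [Real.rpow_neg hk0.le, one_div ((10 : ℝ) ^ 103)]
      exact inv_anti₀ (by positivity) h1
    have h3 : 16 * C * ((1 + cc) ^ 2 / cc ^ 3) ^ 2 ≤ 10 ^ 103 := by
      rw [hC]; norm_num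
    have h4 : 0 ≤ k ^ (-(1 / 20000) : ℝ) := by positivity
    calc 4 * F k * C * ((1 + cc) ^ 2 / cc ^ 3) ^ 2
        = 16 * C * ((1 + cc) ^ 2 / cc ^ 3) ^ 2 * k ^ (-(1 / 20000) : ℝ) := by
          simp only [hF]; ring
      _ ≤ 10 ^ 103 * (1 / 10 ^ 103) := mul_le_mul h3 h2 h4 (by positivity)
      _ = 1 := by norm_num
  obtain ⟨s, hs, hNs⟩ := nearX H
  have hEs := eX H s hs
  obtain ⟨hC1, hC2⟩ := ncX H s hs
  obtain ⟨hQ1, hQ2⟩ := Sk.equiB k s (by linarith)
  have hkinv : k⁻¹ ≤ k ^ (-(1 / 20000) : ℝ) := by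
    rw [← Real.rpow_neg_one]
    exact Real.rpow_le_rpow_of_exponent_le (by linarith) (by norm_num)
  have hFn : mQ.real {z | (0 : ℤ) ∈ Bset k s (ao k z)} + mQ.real (Nset k s) ≤ F k := by
    have h1 : mQ.real {z | (0 : ℤ) ∈ Bset k s (ao k z)} ≤
        mQ.real {z | (0 : ℤ) ∈ Sk.Eset k s (ao k z)} :=
      measureReal_mono fun z hz => Sk.Bset_subset_Eset hz
    have h2 : mQ.real (Nset k s) ≤ mQ.real {z | (0 : ℤ) ∈ Sk.Eset k s (ao k z)} +
        mQ.real {z | Sk.NcMax k s (ao k z)} + mQ.real (Sk.Near k s) := by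
      unfold Nset
      exact (measureReal_union_le _ _).trans (add_le_add (measureReal_union_le _ _) le_rfl)
    simp only [hF]
    linarith
  have hX := closure_bound_gen_inf (mp_Tz k) hQ1 (Bm := fun z => Sk.Bm k s (ao k z))
    (Bp := fun z => Sk.Bp k s (ao k z)) (fun z => Sk.Bm_subset) (fun z => Sk.Bp_subset)
    (c := cc) (C := C) (F := F k) (by norm_num) hC0 (fun _ => Nset k s)
    (fun n z hz h0 i _ hi hiB => Sk.mem_Bm_of (fun h => hz (Or.inl (Or.inl h))) hi hiB)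
    (fun n z hz h0 i hi _ hiB => Sk.mem_Bp_of (fun h => hz (Or.inl (Or.inl h))) hi hiB)
    (fun n => decorX H s hs n) (fun _ => hFn) h6
  have hEq : Equi (Tz k) (fun z => ClInf cc (Bset k s (ao k z))) := by
    refine ⟨fun j z => ?_, fun i => meas_ClInf hQ1.meas cc i⟩
    ext i
    simp only [ClInf, mem_iUnion, mem_preimage]
    refine exists_congr fun n => ?_
    have := (hQ1.cl cc n).shift j z
    rw [this]
    rfl
  exact ⟨s, hs, hEq, hX.trans (le_of_eq (by simp only [hF]; ring))⟩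

end

end Vale.Agent.N108X
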