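import Vale.Agent.N108X.Line

/-!
# P108: decay of correlations and concentration of the exponent
-/

open MeasureTheory Filter Set Topology

namespace Vale.Agent.N108X

open Vale.Agent.P108 Vale.Agent.P108.FT Vale.Agent.N108

section
variable {Y : Type*} [MeasurableSpace Y] {μ : Measure Y} [IsProbabilityMeasure μ] {S : Y → Y}

omit [IsProbabilityMeasure μ] in
lemma int_comp (hS : MeasurePreserving S μ μ) {f : Y → ℝ} (hf : Measurable f) :
    ∫ x, f (S x) ∂μ = ∫ x, f x ∂μ := by
  conv_rhs => rw [← hS.map_eq]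
  rw [integral_map hS.measurable.aemeasurable hf.aestronglyMeasurable]

lemma meas_sum (hS : Measurable S) {f : Y → ℝ} (hf : Measurable f) (n : ℕ) :
    Measurable (birkhoffSum S f n) :=
  Finset.measurable_sum _ fun i _ => hf.comp (hS.iterate i)

omit [MeasurableSpace Y] in
lemma abs_sum_le {f : Y → ℝ} {L : ℝ} (hL : ∀ x, |f x| ≤ L) (n : ℕ) (x : Y) :
    |birkhoffSum S f n x| ≤ n * L := by
  refine (Finset.abs_sum_le_sum_abs _ _).trans ?_
  simpa using Finset.sum_le_card_nsmul (Finset.range n) _ L fun i _ => hL (S^[i] x)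

lemma var_le (hS : MeasurePreserving S μ μ) {f : Y → ℝ} (hf : Measurable f) {L ε : ℝ}
    (hL : ∀ x, |f x| ≤ L) (hε : 0 ≤ ε) {n : ℕ}
    (hc : ∀ i < n, ∫ x, f x * f (S^[i + 1] x) ∂μ ≤ ε) :
    ∫ x, birkhoffSum S f n x ^ 2 ∂μ ≤ n * L ^ 2 + n ^ 2 * ε := by
  induction n with
  | zero => simp
  | succ n ih =>
    have h1 := ih fun i hi => hc i (by omega)
    have m := meas_sum hS.measurable hf n
    have i1 : Integrable (fun x => f x ^ 2) μ := integrable_bdd (hf.pow_const 2) (C := L ^ 2)
      fun x => by rw [abs_pow]; exact pow_le_pow_left₀ (abs_nonneg _) (hL x) 2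
    have i2 : ∀ i : ℕ, Integrable (fun x => f x * f (S^[i + 1] x)) μ := fun i =>
      integrable_bdd (hf.mul (hf.comp (hS.measurable.iterate _))) (C := L * L) fun x => by
        rw [abs_mul]
        exact mul_le_mul (hL _) (hL _) (abs_nonneg _) ((abs_nonneg _).trans (hL x))
    have i3 : Integrable (fun x => birkhoffSum S f n (S x) ^ 2) μ :=
      integrable_bdd ((m.comp hS.measurable).pow_const 2) (C := (n * L) ^ 2) fun x => by
        rw [abs_pow]; exact pow_le_pow_left₀ (abs_nonneg _) (abs_sum_le hL n _) 2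
    have i4 : Integrable (fun x => 2 * ∑ i ∈ Finset.range n, f x * f (S^[i + 1] x)) μ :=
      (integrable_finsetSum _ fun i _ => i2 i).const_mul 2
    have i5 : Integrable
        (fun x => f x ^ 2 + 2 * ∑ i ∈ Finset.range n, f x * f (S^[i + 1] x)) μ := i1.add i4
    have e : ∀ x, birkhoffSum S f (n + 1) x ^ 2 = f x ^ 2 +
        2 * ∑ i ∈ Finset.range n, f x * f (S^[i + 1] x) + birkhoffSum S f n (S x) ^ 2 := by
      intro x
      rw [birkhoffSum_succ', ← Finset.mul_sum]
      simp only [birkhoffSum, Function.iterate_succ_apply]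
      ring
    simp only [e]
    rw [integral_add i5 i3, integral_add i1 i4, integral_const_mul,
      integral_finsetSum _ fun i _ => i2 i, int_comp hS (m.pow_const 2)]
    have h2 : ∫ x, f x ^ 2 ∂μ ≤ L ^ 2 := by
      refine (integral_mono i1 (integrable_const (L ^ 2)) fun x => ?_).trans (by simp)
      exact sq_le_sq' (abs_le.1 (hL x)).1 (abs_le.1 (hL x)).2
    have h3 := Finset.sum_le_card_nsmul (Finset.range n) _ ε fun i hi =>
      hc i (Nat.lt_succ_of_lt (Finset.mem_range.1 hi))
    rw [Finset.card_range, nsmul_eq_mul] at h3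
    push_cast
    nlinarith

lemma l1_le {g : ℕ → Y → ℝ} {C : ℝ} (h : SubCocycle S g C) (hS : MeasurePreserving S μ μ)
    (hg : ∀ n, Measurable (g n)) {ψ : Y → ℝ} (hψ : Measurable ψ) {m : ℕ} (hm : 1 ≤ m) {b B : ℝ}
    (hB0 : 0 ≤ B) (h1 : ∀ x, g m x ≤ ψ x) (h2 : ∀ x, m * b ≤ ψ x)
    (h3 : ∀ x, ψ x ≤ B) :
    ∫ x, |limsup (fun n : ℕ => g n x / n) atTop - b| ∂μ ≤
      2 * ((∫ x, ψ x ∂μ) / m - b) + (b - ∫ x, limsup (fun n : ℕ => g n x / n) atTop ∂μ) := by
  have hm0 : (0 : ℝ) < m := by exact_mod_cast hm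
  have h0 : ∀ x, 0 ≤ ψ x := fun x => (h.nonneg m x).trans (h1 x)
  have s1 := birkhoffSum_bounds (T := S^[m]) h0 h3
  have s2 := birkhoffSum_bounds (T := S^[m]) (h.nonneg m) fun x => (h1 x).trans (h3 x)
  set Λ : Y → ℝ := fun x => limsup (fun q : ℕ => birkhoffSum S^[m] ψ q x / q) atTop with hΛ
  have k1 : ∀ x, limsup (fun n : ℕ => g n x / n) atTop ≤ Λ x / m := fun x =>
    (h.limsup_le hm x).trans (div_le_div_of_nonneg_right (limsup_le_limsup
      (Eventually.of_forall fun q => div_le_div_of_nonneg_right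
        (Finset.sum_le_sum fun i _ => h1 _) q.cast_nonneg)
      (isCoboundedUnder_le_div hB0 (fun n => (s2 x n).1) fun n => (s2 x n).2)
      (isBoundedUnder_le_div hB0 (fun n => (s1 x n).1) fun n => (s1 x n).2)) hm0.le)
  have k2 : ∀ x, b ≤ Λ x / m := by
    intro x
    rw [le_div_iff₀' hm0]
    refine le_limsup_of_frequently_le (Eventually.frequently ?_)
      (isBoundedUnder_le_div hB0 (fun n => (s1 x n).1) fun n => (s1 x n).2)
    filter_upwards [eventually_gt_atTop 0] with q hq
    rw [le_div_iff₀' (by exact_mod_cast hq)]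
    simpa [birkhoffSum] using
      Finset.card_nsmul_le_sum (Finset.range q) _ _ fun i _ => h2 ((S^[m])^[i] x)
  have i1 : Integrable Λ μ := integrable_bdd (Measurable.limsup
      (f := fun (n : ℕ) x => birkhoffSum S^[m] ψ n x / n)
      fun n => (meas_sum (hS.measurable.iterate m) hψ n).div_const _) (C := B) fun x => by
    rw [abs_of_nonneg (limsup_div_nonneg hB0 (fun n => (s1 x n).1) fun n => (s1 x n).2)]
    exact limsup_div_le hB0 (fun n => (s1 x n).1) fun n => (s1 x n).2
  have i2 := h.integrable_limsup (μ := μ) hg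
  have i3 : Integrable (fun x => 2 * (Λ x / m - b)) μ :=
    ((i1.div_const m).sub (integrable_const b)).const_mul 2
  have i4 : Integrable (fun x => b - limsup (fun n : ℕ => g n x / n) atTop) μ :=
    (integrable_const b).sub i2
  have k3 := div_le_div_of_nonneg_right
    (integral_limsup_birkhoff_le (hS.iterate m) hψ hB0 h0 h3) hm0.le
  refine (integral_mono (i2.sub (integrable_const b)).abs (i3.add i4) fun x =>
    abs_le.2 ⟨?_, ?_⟩).trans ?_
  · simp only [Pi.add_apply, Pi.sub_apply]
    linarith [k2 x]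
  · simp only [Pi.add_apply, Pi.sub_apply]
    linarith [k1 x]
  · simp only [Pi.add_apply]
    rw [integral_add i3 i4, integral_const_mul, integral_sub (i1.div_const m) (integrable_const b),
      integral_sub (integrable_const b) i2, integral_div, integral_const, probReal_univ, one_smul]
    linarith

end

lemma per_iter {f : ℝ → ℝ} (hp : Function.Periodic f 1) (k : ℝ) (n : ℕ) (z : ℝ × ℝ) :
    f ((T k)^[n] z).1 = f ((F k)^[n] z).1 := by
  obtain ⟨c, d, h⟩ := T_iter_eq k n z
  rw [h]
  simpa [ip] using (hp.int_mul c _).symm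

lemma int_ee {k τ s : ℝ} (hk : 1 ≤ k) (hτ : 0 < τ) (hs : 0 < s) :
    ∫ z, ee k τ z.1 ∂mQ ≤ s / k + τ ^ 2 / s ^ 2 := by
  have hj : Integrable ({z : ℝ × ℝ | |a k z.1| ≤ s}.indicator fun _ => (1 : ℝ)) mQ :=
    (integrable_const _).indicator (meas_E1 k s)
  have h2 : ∫ z, ee k τ z.1 ∂mQ ≤
      ∫ z, ({z : ℝ × ℝ | |a k z.1| ≤ s}.indicator (fun _ => (1 : ℝ)) z + τ ^ 2 / s ^ 2) ∂mQ := by
    refine integral_mono_of_nonneg (Eventually.of_forall fun z => (ee_mem hτ _).1)
      (hj.add (integrable_const _)) (Eventually.of_forall fun z => ?_)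
    simp only [indicator, mem_ofPred_eq]
    split_ifs with h
    · exact (ee_mem hτ _).2.trans (le_add_of_nonneg_right (by positivity))
    · rw [zero_add]
      refine div_le_div_of_nonneg_left (by positivity) (by positivity) ?_
      have := pow_le_pow_left₀ hs.le (not_le.1 h).le 2
      rw [sq_abs] at this
      nlinarith
  rw [integral_add hj (integrable_const _), integral_indicator_const _ (meas_E1 k s),
    integral_const, probReal_univ, one_smul, smul_eq_mul, mul_one] at h2
  linarith [real_E1 hk hs.le]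

theorem cov_le {k τ s : ℝ} (hk : 1 ≤ k) (hτ : 1 ≤ τ) (hs : 0 < s) {N : ℕ} (hN : (N : ℝ) ≤ τ ^ 2)
    {f : ℝ → ℝ} {L : ℝ} (hf : Continuous f) (hp : Function.Periodic f 1)
    (h0 : ∫ x in (0 : ℝ)..1, f x = 0) (hL : ∀ x, |f x| ≤ L) {i : ℕ} (hi : i ≤ N) :
    ∫ z, f z.1 * f ((T k)^[i + 1] z).1 ∂mQ ≤
      L ^ 2 * (2 * N * (s / k + τ ^ 2 / s ^ 2) + (N / τ ^ 2 + 160 * k / τ ^ 2)) := by
  have hτ0 : 0 < τ := by linarith
  have hL0 : 0 ≤ L := (abs_nonneg _).trans (hL 0)
  have mT : ∀ n, Measurable fun z : ℝ × ℝ => ((T k)^[n] z).1 := fun n =>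
    measurable_fst.comp ((mp_T k).measurable.iterate n)
  have pe : Function.Periodic (ee k τ) 1 := fun x => by
    simpa [ee] using congrArg (fun y => τ ^ 2 / (y ^ 2 + τ ^ 2)) (a_add_int k x 1)
  have i1 : Integrable (fun z : ℝ × ℝ => f z.1 * f ((T k)^[i + 1] z).1) mQ :=
    integrable_bdd ((hf.measurable.comp measurable_fst).mul (hf.measurable.comp (mT _)))
      (C := L * L) fun z => by
        rw [abs_mul]; exact mul_le_mul (hL _) (hL _) (abs_nonneg _) hL0
  have i2 : ∀ n, Integrable (fun z : ℝ × ℝ => ee k τ ((T k)^[n] z).1) mQ := fun n =>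
    integrable_bdd ((continuous_ee hτ0).measurable.comp (mT n)) (C := 1) fun z => by
      rw [abs_of_nonneg (ee_mem hτ0 _).1]; exact (ee_mem hτ0 _).2
  have i3 : Integrable (fun z : ℝ × ℝ =>
      2 * ∑ m ∈ Finset.range i, ee k τ ((T k)^[m + 1] z).1) mQ :=
    (integrable_finsetSum _ fun m _ => i2 _).const_mul 2
  have h1 : ∫ z, 2 * ∑ m ∈ Finset.range i, ee k τ ((T k)^[m + 1] z).1 ∂mQ ≤
      2 * N * (s / k + τ ^ 2 / s ^ 2) := by
    rw [integral_const_mul, integral_finsetSum _ fun m _ => i2 _, mul_assoc]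
    refine mul_le_mul_of_nonneg_left ?_ zero_le_two
    refine (Finset.sum_le_card_nsmul _ _ (s / k + τ ^ 2 / s ^ 2) fun m _ => ?_).trans ?_
    · exact (int_comp ((mp_T k).iterate (m + 1))
        ((continuous_ee hτ0).measurable.comp measurable_fst)).le.trans (int_ee hk hτ0 hs)
    · rw [Finset.card_range, nsmul_eq_mul]
      exact mul_le_mul_of_nonneg_right (by exact_mod_cast hi) (by positivity)
  refine le_trans ?_ (mul_le_mul_of_nonneg_left (add_le_add h1 le_rfl) (sq_nonneg L))
  rw [mQ_eq] at i1 i3 ⊢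
  rw [integral_prod _ i1, integral_prod _ i3]
  have i4 := i3.integral_prod_left
  refine (integral_mono i1.integral_prod_left
    ((i4.add (integrable_const (N / τ ^ 2 + 160 * k / τ ^ 2))).const_mul (L ^ 2))
    fun c => ?_).trans (le_of_eq ?_)
  · have h2 := line_le (k := k) (by linarith) hτ hN hf hp h0 hL c hi
    simp only [intervalIntegral.integral_of_le zero_le_one, ← integral_Ico_eq_integral_Ioc, X]
      at h2
    simp only [Pi.add_apply, per_iter hp, per_iter pe, integral_const_mul]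
    rw [integral_const_mul] at h2
    refine (le_abs_self _).trans ?_
    rw [abs_mul, sq, mul_assoc]
    exact mul_le_mul (hL c) h2 (abs_nonneg _) hL0
  · simp only [Pi.add_apply]
    rw [integral_const_mul, integral_add i4 (integrable_const _), integral_const, probReal_univ,
      one_smul]

/-- **Concentration of the exponent.** -/
theorem concX {k : ℝ} (H : Huge k) :
    ∫ z, |lyap k z - Real.log (Real.pi * k)| ∂mQ ≤ k ^ (-(1 / 50000) : ℝ) := by
  have hk0 := H.k0
  have hx := H.x
  have h1 := (lowerX H).2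
  have h2 := up_meanX H
  have h3 := ent_upper k
  have hsm := H.small (y := 1 / 16) (C := 240) (by norm_num) (by norm_num) (by norm_num)
  have hp13 : 13 ≤ k ^ (1 / 16 : ℝ) := H.le_rpow (by norm_num) (by norm_num)
  have hpk : (k ^ (1 / 16 : ℝ)) ^ 16 = k := by
    rw [← Real.rpow_natCast, ← Real.rpow_mul hk0.le]; norm_num
  rw [Real.rpow_neg hk0.le (1 / 16)] at hsm
  generalize k ^ (1 / 16 : ℝ) = p at hsm hp13 hpk
  generalize k ^ (-(1 / 50000) : ℝ) = δ at *
  have hp0 : 0 < p := by linarith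
  have hp1 : 1 ≤ p := by linarith
  have hp2 : 160 ≤ p ^ 2 := by nlinarith
  obtain ⟨N, hN1, hN2⟩ : ∃ N : ℕ, p ^ 2 ≤ N ∧ N ≤ 2 * p ^ 2 :=
    ⟨⌈p ^ 2⌉₊, Nat.le_ceil _, (Nat.ceil_lt_add_one (by positivity)).le.trans (by linarith)⟩
  have hN0 : (0 : ℝ) < N := by linarith
  have hN3 : (N : ℝ) * p ^ 2 ≤ (p ^ 10) ^ 2 := by
    have h4 : p ^ 2 * p ^ 4 ≤ p ^ 20 := by
      rw [← pow_add]; exact pow_le_pow_right₀ hp1 (by norm_num)
    have h5 := mul_le_mul_of_nonneg_right hN2 (show 0 ≤ p ^ 2 by positivity)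
    have h6 := mul_le_mul_of_nonneg_right hp2 (show 0 ≤ p ^ 4 by positivity)
    have h7 : 0 ≤ p ^ 4 := by positivity
    linarith [show (p ^ 10) ^ 2 = p ^ 20 by ring, show 2 * p ^ 2 * p ^ 2 = 2 * p ^ 4 by ring]
  set L := 2 * Real.log k with hL
  have hb : ∀ x, 0 ≤ Real.log (|a k x| + 6) ∧ Real.log (|a k x| + 6) ≤ L := by
    intro x
    refine ⟨Real.log_nonneg (by linarith [abs_nonneg (a k x)]), ?_⟩
    have h4 := abs_a_le k x
    have h5 : 9 ≤ k := H.ge (by norm_num)
    rw [abs_of_pos hk0] at h4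
    rw [hL, two_mul, ← Real.log_mul hk0.ne' hk0.ne']
    exact Real.log_le_log (by positivity) (by nlinarith [Real.pi_lt_d2])
  have mg : Measurable fun z : ℝ × ℝ => Real.log (|a k z.1| + 6) :=
    (continuous_up k).measurable.comp measurable_fst
  have ig : Integrable (fun z : ℝ × ℝ => Real.log (|a k z.1| + 6)) mQ :=
    integrable_bdd mg fun z => up_bdd k _
  set b := ∫ z, Real.log (|a k z.1| + 6) ∂mQ with hbd
  have hb0 : 0 ≤ b := integral_nonneg fun z => (hb _).1
  have hbL : b ≤ L := (integral_mono ig (integrable_const L) fun z => (hb _).2).trans (by simp)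
  set f : ℝ → ℝ := fun x => Real.log (|a k x| + 6) - b with hf
  have hfL : ∀ x, |f x| ≤ L := fun x =>
    abs_le.2 ⟨by simp only [hf]; linarith [(hb x).1], by simp only [hf]; linarith [(hb x).2]⟩
  have hfc : Continuous f := (continuous_up k).sub continuous_const
  have hfp : Function.Periodic f 1 := fun x => by
    simpa [hf] using congrArg (fun y => Real.log (|y| + 6)) (a_add_int k x 1)
  have hf0 : ∫ x in (0 : ℝ)..1, f x = 0 := by
    rw [intervalIntegral.integral_sub ((continuous_up k).intervalIntegrable _ _)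
      intervalIntegrable_const, intervalIntegral.integral_of_le zero_le_one,
      ← integral_Ico_eq_integral_Ioc, ← integral_fst fun x => Real.log (|a k x| + 6)]
    simp [hbd]
  have mf : Measurable fun z : ℝ × ℝ => f z.1 := hfc.measurable.comp measurable_fst
  have hV := var_le (mp_T k) mf (L := L) (ε := L ^ 2 * (10 / p ^ 2)) (fun z => hfL _)
    (by positivity) (n := N) fun i hi => by
      refine (cov_le H.one_le (τ := p ^ 10) (s := p ^ 12) (one_le_pow₀ hp1) (by positivity)
        (le_trans (le_mul_of_one_le_right hN0.le (by linarith)) hN3) hfc hfp hf0 hfL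
        hi.le).trans (mul_le_mul_of_nonneg_left ?_ (sq_nonneg L))
      have e1 : p ^ 12 / k + (p ^ 10) ^ 2 / (p ^ 12) ^ 2 = 2 / p ^ 2 / p ^ 2 := by
        rw [← hpk]; field_simp; norm_num
      have e2 : 160 * k / (p ^ 10) ^ 2 = 160 / p ^ 2 / p ^ 2 := by rw [← hpk]; field_simp
      have e3 : 2 * N * (2 / p ^ 2 / p ^ 2) ≤ 8 / p ^ 2 := by
        rw [← mul_div_assoc, ← mul_div_assoc]
        refine div_le_div_of_nonneg_right ?_ (by positivity)
        rw [div_le_iff₀ (by positivity)]
        linarith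
      have e4 : N / (p ^ 10) ^ 2 ≤ 1 / p ^ 2 := by
        rw [div_le_div_iff₀ (by positivity) (by positivity)]
        linarith
      have e5 : 160 / p ^ 2 / p ^ 2 ≤ 1 / p ^ 2 :=
        div_le_div_of_nonneg_right (div_le_one_of_le₀ hp2 (by positivity)) (by positivity)
      rw [e1, e2, show 10 / p ^ 2 = 8 / p ^ 2 + (1 / p ^ 2 + 1 / p ^ 2) by ring]
      linarith
  set s : ℝ × ℝ → ℝ := birkhoffSum (T k) (fun z => f z.1) N with hs
  have ms : Measurable s := meas_sum (mp_T k).measurable mf N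
  have hsb : ∀ z, |s z| ≤ N * L := abs_sum_le (fun z => hfL _) N
  have is1 : Integrable (fun z => |s z|) mQ :=
    integrable_bdd ms.abs fun z => by rw [abs_abs]; exact hsb z
  have is2 : Integrable (fun z => s z ^ 2) mQ :=
    integrable_bdd (ms.pow_const 2) (C := (N * L) ^ 2) fun z => by
      rw [abs_pow]; exact pow_le_pow_left₀ (abs_nonneg _) (hsb z) 2
  have hL1 : 1 ≤ L ^ 2 := one_le_pow₀ (by linarith)
  have h4 : (∫ z, |s z| ∂mQ) / N ≤ 6 * (L ^ 2 * p⁻¹) := by
    have i3 := is2.const_mul (p / (2 * N))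
    have h5 := integral_mono is1 (i3.add (integrable_const (N / (2 * p)))) fun z => by
      simp only [Pi.add_apply]
      have h6 : 0 ≤ p / (2 * N) * (|s z| - N / p) ^ 2 := by positivity
      have h7 : p / (2 * N) * (|s z| - N / p) ^ 2 =
          p / (2 * N) * |s z| ^ 2 + N / (2 * p) - |s z| := by field_simp; ring
      rw [h7, sq_abs] at h6
      linarith
    simp only [Pi.add_apply] at h5
    rw [integral_add i3 (integrable_const _), integral_const_mul, integral_const, probReal_univ,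
      one_smul] at h5
    have h6 : (N : ℝ) * L ^ 2 ≤ N ^ 2 * (L ^ 2 * (1 / p ^ 2)) := by
      have h7 : 1 ≤ N * (1 / p ^ 2) := by
        rw [mul_one_div]; exact (one_le_div (by positivity)).2 hN1
      have h8 := mul_le_mul_of_nonneg_left h7 (show 0 ≤ N * L ^ 2 by positivity)
      linarith
    have h7 := mul_le_mul_of_nonneg_left (hV.trans (add_le_add h6 le_rfl))
      (show 0 ≤ p / (2 * N) by positivity)
    have h8 : p / (2 * N) * (N ^ 2 * (L ^ 2 * (1 / p ^ 2)) + N ^ 2 * (L ^ 2 * (10 / p ^ 2))) =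
        N * (11 / 2 * (L ^ 2 * p⁻¹)) := by field_simp; norm_num
    have h9 : N / (2 * p) ≤ N * (1 / 2 * (L ^ 2 * p⁻¹)) := by
      rw [show N / (2 * p) = N * (1 / 2 * (1 * p⁻¹)) by field_simp]
      gcongr
    rw [div_le_iff₀' hN0]
    linarith
  have h5 := l1_le (subCocycle_g k) (mp_T k) (measurable_g_z k)
    (ψ := fun z => |s z| + N * b) (ms.abs.add_const _) (m := N) (by exact_mod_cast hN0) (b := b)
    (B := N * L + N * b) (by positivity) (fun z => ?_)
    (fun z => le_add_of_nonneg_left (abs_nonneg _)) fun z => add_le_add (hsb z) le_rfl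
  · rw [integral_add is1 (integrable_const _), integral_const, probReal_univ, one_smul, add_div,
      mul_div_cancel_left₀ _ hN0.ne', add_sub_cancel_right] at h5
    have i1 : Integrable (fun z => |lyap k z - b|) mQ :=
      ((integrable_lyap k).sub (integrable_const b)).abs
    have h6 := integral_mono ((integrable_lyap k).sub
      (integrable_const (Real.log (Real.pi * k)))).abs (i1.add (integrable_const (δ / 4)))
      fun z => (abs_sub_le _ b _).trans (add_le_add le_rfl (abs_le.2 ⟨by linarith, by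
        have : 0 ≤ Real.log k ^ 2 * p⁻¹ := by positivity
        linarith⟩))
    simp only [Pi.add_apply, Pi.sub_apply] at h6
    rw [integral_add i1 (integrable_const _), integral_const, probReal_univ, one_smul] at h6
    have h7 : ∫ z, |lyap k z - b| ∂mQ ≤ 2 * ((∫ z, |s z| ∂mQ) / N) + (b - ent k) := h5
    have h8 : L ^ 2 * p⁻¹ = 4 * (Real.log k ^ 2 * p⁻¹) := by rw [hL]; ring
    have : 0 ≤ Real.log k ^ 2 * p⁻¹ := by positivity
    linarith
  · have h6 := (subCocycle_g k).mul_le 1 N z
    rw [mul_one, Function.iterate_one] at h6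
    have h7 : birkhoffSum (T k) (g k 1) N z ≤ s z + N * b := by
      rw [show s z + N * b = ∑ i ∈ Finset.range N, Real.log (|a k ((T k)^[i] z).1| + 6) by
        simp [hs, hf, birkhoffSum]]
      refine Finset.sum_le_sum fun i _ =>
        Real.log_le_log (lt_of_lt_of_le one_pos (one_le_norm_M 1 k _)) ?_
      rw [M_one]
      exact norm_A_le' k _
    linarith [le_abs_self (s z)]

end Vale.Agent.N108X
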