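import Vale.Agent.N108X.Defs
import Vale.Agent.N108X.Mix

/-!
# P108: comparison of the definitions
-/

open MeasureTheory Filter Set Topology
open scoped ENNReal

namespace Vale.Agent.N108X

open Vale.Agent.P108 Vale.Agent.P108.Tor Vale.Agent.P109.KS Vale.Agent.P108L

theorem std_eq (k : ℝ) : std k = stdMap k := by
  have h : ∀ x : UnitAddCircle, (fourier 1 x).im = sinT x := by
    intro x
    induction x using QuotientAddGroup.induction_on with
    | _ x =>
    rw [sinT_coe, fourier_coe_apply, ← Complex.exp_ofReal_mul_I_im]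
    congr 2
    push_cast
    ring
  funext p
  simp only [std, stdMap, h]

section
variable {Y : Type} [MeasurableSpace Y] {μ : Measure Y} [IsProbabilityMeasure μ] {S : Y → Y}

omit [IsProbabilityMeasure μ] in
lemma IsPart.cell {P : Finset (Set Y)} (h : IsPart P) : ∃ c : Y → P,
    (∀ x (A : P), c x = A ↔ x ∈ (A : Set Y)) ∧ (∀ A, MeasurableSet (c ⁻¹' {A})) ∧
      ∀ n, block μ S P n = shannon μ (name S c n) / n := by
  choose c hc hu using h.1.2
  have h1 : ∀ x (A : P), (⟨c x, (hc x).1⟩ : P) = A ↔ x ∈ (A : Set Y) := fun x A =>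
    ⟨fun e => e ▸ (hc x).2, fun e => Subtype.ext (hu x A ⟨A.2, e⟩).symm⟩
  refine ⟨_, h1, fun A => ?_, fun n => ?_⟩
  · convert h.2 A A.2 using 1
    ext x
    exact h1 x A
  · unfold block shannon
    congr 1
    refine Finset.sum_congr rfl fun A _ => ?_
    congr 2
    ext x
    simp [name, funext_iff, h1]

lemma shannon_name_le (hS : Measurable S) {A B : Type} [Fintype A] [Fintype B] {c : Y → A}
    (hc : ∀ a, MeasurableSet (c ⁻¹' {a})) (φ : A → B) (n : ℕ) :
    shannon μ (name S (fun x => φ (c x)) n) ≤ shannon μ (name S c n) :=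
  shannon_comp_le (measurableSet_name hS hc n) fun w i => φ (w i)

lemma IsPart.code (hS : MeasurePreserving S μ μ) {P : Finset (Set Y)} (h : IsPart P) :
    ∃ (d : ℕ) (f : Y → Fin d), Measurable f ∧
      (∀ n, block μ S P n = shannon μ (name S f n) / n) ∧
      Tendsto (block μ S P) atTop (𝓝 (limUnder atTop (block μ S P))) := by
  obtain ⟨c, -, h2, h3⟩ := h.cell (μ := μ) (S := S)
  have h4 : ∀ i, MeasurableSet ((fun x => P.equivFin (c x)) ⁻¹' {i}) := fun i => by
    convert h2 (P.equivFin.symm i) using 1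
    ext x
    simp [Equiv.eq_symm_apply]
  have h5 : ∀ n, block μ S P n = shannon μ (name S (fun x => P.equivFin (c x)) n) / n := by
    intro n
    rw [h3]
    congr 1
    refine le_antisymm ?_ (shannon_name_le hS.measurable h2 _ n)
    simpa using shannon_name_le (μ := μ) hS.measurable h4 P.equivFin.symm n
  have h6 := measurable_to_countable' h4
  obtain ⟨r, hr⟩ := rate hS (part_of h6)
  exact ⟨_, _, h6, h5, tendsto_nhds_limUnder ⟨r, hr.congr fun n => by rw [joinEnt_eq, h5]⟩⟩

theorem entropy_eq (hS : MeasurePreserving S μ μ) : entropy μ S = ksEntropy μ S := by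
  classical
  refine le_antisymm (iSup₂_le fun P hP => ?_) (iSup_le fun d => iSup₂_le fun f hf => ?_)
  · obtain ⟨d, f, hf, h1, h2⟩ := hP.code hS
    refine le_iSup_of_le d (le_iSup₂_of_le f hf ?_)
    rw [← (ENNReal.tendsto_ofReal h2).limsup_eq]
    simp only [h1, le_refl]
  · set P : Finset (Set Y) :=
      (Finset.univ.filter fun i => (f ⁻¹' {i}).Nonempty).image fun i => f ⁻¹' {i} with hP
    have hm : ∀ A, A ∈ P ↔ ∃ x, f ⁻¹' {f x} = A := fun A => by
      simp only [hP, Finset.mem_image, Finset.mem_filter, Finset.mem_univ, true_and]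
      exact ⟨fun ⟨i, ⟨x, hx⟩, e⟩ => ⟨x, (hx : f x = i) ▸ e⟩, fun ⟨x, e⟩ => ⟨_, ⟨x, rfl⟩, e⟩⟩
    have h0 : IsPart P := by
      refine ⟨⟨fun h => ?_, fun x => ⟨f ⁻¹' {f x}, ⟨(hm _).2 ⟨x, rfl⟩, rfl⟩, ?_⟩⟩, fun A hA => ?_⟩
      · obtain ⟨x, hx⟩ := (hm _).1 h
        exact (hx ▸ (rfl : x ∈ f ⁻¹' {f x}) : x ∈ (∅ : Set Y))
      · rintro A ⟨hA, hx⟩
        obtain ⟨y, rfl⟩ := (hm _).1 hA
        rw [show f x = f y from hx]
      · obtain ⟨y, rfl⟩ := (hm _).1 hA
        exact hf (measurableSet_singleton _)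
    obtain ⟨c, h1, h2, h3⟩ := h0.cell (μ := μ) (S := S)
    obtain ⟨-, -, -, -, h4⟩ := h0.code hS
    choose y hy using fun A : P => (hm A).1 A.2
    have h5 : f = fun x => f (y (c x)) := funext fun x =>
      show x ∈ f ⁻¹' {f (y (c x))} from (hy (c x)).symm ▸ (h1 x _).1 rfl
    refine le_iSup₂_of_le P h0 ?_
    rw [← (ENNReal.tendsto_ofReal h4).limsup_eq]
    refine limsup_le_limsup (Eventually.of_forall fun n => ENNReal.ofReal_le_ofReal ?_)
    rw [h3, h5]
    exact div_le_div_of_nonneg_right (shannon_name_le hS.measurable h2 (fun A => f (y A)) n)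
      n.cast_nonneg

end

/-- the coordinates of the Euclidean plane -/
noncomputable def co : ℂ ≃L[ℝ] ℝ × ℝ := Complex.equivRealProdCLM

lemma fderiv_lift (k : ℝ) (n : ℕ) (z : ℂ) :
    co.toContinuousLinearMap.comp (fderiv ℝ (lift k)^[n] z) =
      (M n k (co z)).comp co.toContinuousLinearMap := by
  have h : Function.Semiconj co (lift k) (F k) := fun z => rfl
  have h1 : co ∘ (lift k)^[n] = (F k)^[n] ∘ co := (h.iterate_right n).comp_eq
  rw [← co.comp_fderiv, h1, co.comp_right_fderiv]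
  rfl

lemma grow_sub (k : ℝ) : ∃ C : ℝ, ∀ p n, |grow k p n - g k n (sg p) / n| ≤ C / n := by
  set e := co.toContinuousLinearMap with he
  set e' := co.symm.toContinuousLinearMap with he'
  refine ⟨Real.log (max (‖e‖ * ‖e'‖) 1), fun p n => ?_⟩
  set c := max (‖e‖ * ‖e'‖) 1 with hc
  have hc0 : 0 < c := lt_max_of_lt_right one_pos
  have h1 := fderiv_lift k n ⟨p.1.out, p.2.out⟩
  have h2 : M n k (co ⟨p.1.out, p.2.out⟩) = M n k (sg p) := by
    have h3 : ∀ x : UnitAddCircle, sec x = Int.fract x.out := fun x => by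
      rw [← sec_mk, QuotientAddGroup.out_eq']
    rw [show sg p = Dyn.fr (co ⟨p.1.out, p.2.out⟩) from Prod.ext (h3 _) (h3 _), Dyn.fr_eq,
      M_add_ip]
  rw [h2] at h1
  unfold grow g
  have h3 := one_le_norm_M n k (sg p)
  generalize fderiv ℝ (lift k)^[n] ⟨p.1.out, p.2.out⟩ = B at h1
  generalize M n k (sg p) = A at h1 h3
  have h4 : ‖A‖ ≤ c * ‖B‖ := by
    have : A = (e.comp B).comp e' := by
      rw [he, h1]; ext <;> simp [he']
    rw [this]
    refine ((ContinuousLinearMap.opNorm_comp_le _ _).trans (mul_le_mul_of_nonneg_right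
      (ContinuousLinearMap.opNorm_comp_le _ _) (norm_nonneg _))).trans ?_
    rw [mul_right_comm]
    exact mul_le_mul_of_nonneg_right (le_max_left _ _) (norm_nonneg _)
  have h5 : ‖B‖ ≤ c * ‖A‖ := by
    have : B = e'.comp (A.comp e) := by
      rw [he, ← h1]; ext1 v; simp [he']
    rw [this]
    refine ((ContinuousLinearMap.opNorm_comp_le _ _).trans (mul_le_mul_of_nonneg_left
      (ContinuousLinearMap.opNorm_comp_le _ _) (norm_nonneg _))).trans ?_
    rw [show ‖e'‖ * (‖A‖ * ‖e‖) = ‖e‖ * ‖e'‖ * ‖A‖ by ring]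
    exact mul_le_mul_of_nonneg_right (le_max_left _ _) (norm_nonneg _)
  have hA : 0 < ‖A‖ := by linarith
  have hB : 0 < ‖B‖ := (mul_pos_iff_of_pos_left hc0).1 (hA.trans_le h4)
  have h6 := Real.log_le_log hA h4
  have h7 := Real.log_le_log hB h5
  rw [Real.log_mul hc0.ne' hB.ne'] at h6
  rw [Real.log_mul hc0.ne' hA.ne'] at h7
  rw [← sub_div, abs_div, Nat.abs_cast]
  exact div_le_div_of_nonneg_right (abs_le.2 ⟨by linarith, by linarith⟩) n.cast_nonneg

theorem expo_eq (k : ℝ) (p : UnitAddCircle × UnitAddCircle) : expo k p = lyap k (sg p) := by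
  obtain ⟨C, h⟩ := grow_sub k
  have h0 := subCocycle_g k
  have h1 := bdd_div h0.C0 (fun n => h0.nonneg n (sg p)) fun n => h0.bound n (sg p)
  have h2 := tendsto_const_div_atTop_nhds_zero_nat C
  have h3 : ∀ᶠ n : ℕ in atTop, C / n ≤ 1 := (h2.eventually (gt_mem_nhds one_pos)).mono
    fun _ => le_of_lt
  rw [lyap_eq]
  refine le_antisymm (limsup_le_of_le_add
    (Eventually.of_forall fun n => by linarith [(abs_le.1 (h p n)).2]) h2
    (isCoboundedUnder_le_of_eventually_le atTop (x := -1) (h3.mono fun n hn => ?_))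
    (isBoundedUnder_of ⟨_, fun n => (h1 n).2⟩)) (limsup_le_of_le_add
    (Eventually.of_forall fun n => by linarith [(abs_le.1 (h p n)).1]) h2
    (isCoboundedUnder_le_of_le atTop fun n => (h1 n).1)
    (isBoundedUnder_of_eventually_le (a := Real.log (C1 k) + 1) (h3.mono fun n hn => ?_)))
  · linarith [(abs_le.1 (h p n)).1, (h1 n).1]
  · linarith [(abs_le.1 (h p n)).2, (h1 n).2]

end Vale.Agent.N108X
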