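import Mathlib.Analysis.Fourier.AddCircle
import Mathlib.Analysis.SpecialFunctions.Log.NegMulLog
import Mathlib.Analysis.Calculus.FDeriv.Basic
import Mathlib.Data.Setoid.Partition

/-!
# P108: the standard map, its entropy and its exponent
-/

open MeasureTheory Filter
open scoped ENNReal

namespace Vale.Agent.N108X

/-- The standard map `f_k` of the torus; `(fourier 1 x).im = sin (2 π x)`. -/
noncomputable def std (k : ℝ) (p : UnitAddCircle × UnitAddCircle) :
    UnitAddCircle × UnitAddCircle :=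
  (p.1 + p.2 + ((k * (fourier 1 p.1).im : ℝ) : UnitAddCircle),
    p.2 + ((k * (fourier 1 p.1).im : ℝ) : UnitAddCircle))

/-- `P` is a finite partition into measurable sets. -/
def IsPart {X : Type} [MeasurableSpace X] (P : Finset (Set X)) : Prop :=
  Setoid.IsPartition (P : Set (Set X)) ∧ ∀ A ∈ P, MeasurableSet A

/-- `H (P ∨ T⁻¹ P ∨ ⋯ ∨ T^{-(n-1)} P) / n` -/
noncomputable def block {X : Type} [MeasurableSpace X] (μ : Measure X) (T : X → X)
    (P : Finset (Set X)) (n : ℕ) : ℝ :=
  (∑ A : Fin n → P, Real.negMulLog (μ.real (⋂ i : Fin n, T^[i] ⁻¹' (A i : Set X)))) / n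

/-- The Kolmogorov-Sinai entropy `h_μ(T) = sup_P lim_n H (P ∨ ⋯ ∨ T^{-(n-1)} P) / n`. -/
noncomputable def entropy {X : Type} [MeasurableSpace X] (μ : Measure X) (T : X → X) : ℝ≥0∞ :=
  ⨆ (P : Finset (Set X)) (_ : IsPart P), ENNReal.ofReal (limUnder atTop (block μ T P))

/-- The lift of `f_k` to the Euclidean plane, whose points are written `x + i y`. -/
noncomputable def lift (k : ℝ) (z : ℂ) : ℂ :=
  ⟨z.re + z.im + k * Real.sin (2 * Real.pi * z.re), z.im + k * Real.sin (2 * Real.pi * z.re)⟩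

/-- `log ‖D f_k^n (p)‖ / n`, computed at a lift of `p`. -/
noncomputable def grow (k : ℝ) (p : UnitAddCircle × UnitAddCircle) (n : ℕ) : ℝ :=
  Real.log ‖fderiv ℝ (lift k)^[n] ⟨p.1.out, p.2.out⟩‖ / n

/-- The upper Lyapunov exponent `λ₊(p)`. -/
noncomputable def expo (k : ℝ) (p : UnitAddCircle × UnitAddCircle) : ℝ :=
  limsup (grow k p) atTop

end Vale.Agent.N108X
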