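import Vale.Agent.N108X.Bridge

/-!
# P108: the limit defining the exponent exists almost everywhere
-/

open MeasureTheory Filter Set Topology

namespace Vale.Agent.N108X

open Vale.Agent.P108 Vale.Agent.N108

variable {Y : Type*} {S : Y → Y} {g : ℕ → Y → ℝ} {C : ℝ}

lemma liminf_mono (h : SubCocycle S g C) (x : Y) :
    liminf (fun n : ℕ => g n x / n) atTop ≤ liminf (fun n : ℕ => g n (S x) / n) atTop := by
  have b := fun x => bdd_div h.C0 (fun n => h.nonneg n x) fun n => h.bound n x
  refine le_of_forall_lt_imp_le_of_dense fun r hr => le_of_forall_pos_le_add fun ε hε => ?_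
  rw [← sub_le_iff_le_add]
  refine le_liminf_of_le (isCoboundedUnder_ge_of_le atTop fun n => (b _ n).2) ?_
  have h1 := (tendsto_add_atTop_nat 1).eventually (eventually_lt_of_lt_liminf hr
    (isBoundedUnder_of ⟨0, fun n => (b x n).1⟩))
  have h2 := (tendsto_const_div_atTop_nhds_zero_nat C).eventually (gt_mem_nhds hε)
  filter_upwards [h1, h2, eventually_gt_atTop 0] with n h1 h2 hn
  have hn0 : (0 : ℝ) < n := by exact_mod_cast hn
  have h3 := h.sub 1 n x
  have h4 := h.bound 1 x
  rw [add_comm, Function.iterate_one] at h3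
  rw [lt_div_iff₀ (by positivity)] at h1
  rw [div_lt_iff₀ hn0] at h2
  rw [le_div_iff₀ hn0]
  push_cast at h1 h4
  rcases le_total 0 r with h5 | h5
  · nlinarith
  · nlinarith [h.nonneg n (S x)]

theorem kingman [MeasurableSpace Y] {μ : Measure Y} [IsProbabilityMeasure μ]
    (h : SubCocycle S g C) (hS : MeasurePreserving S μ μ) (hg : ∀ n, Measurable (g n)) :
    ∀ᵐ x ∂μ, Tendsto (fun n : ℕ => g n x / n) atTop
      (𝓝 (limsup (fun n : ℕ => g n x / n) atTop)) := by
  have b := fun x => bdd_div h.C0 (fun n => h.nonneg n x) fun n => h.bound n x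
  have b1 : ∀ x, IsBoundedUnder (· ≤ ·) atTop fun n : ℕ => g n x / n := fun x =>
    isBoundedUnder_of ⟨C, fun n => (b x n).2⟩
  have b2 : ∀ x, IsBoundedUnder (· ≥ ·) atTop fun n : ℕ => g n x / n := fun x =>
    isBoundedUnder_of ⟨0, fun n => (b x n).1⟩
  set l : Y → ℝ := fun x => liminf (fun n : ℕ => g n x / n) atTop with hl
  have hlL : ∀ x, l x ≤ limsup (fun n : ℕ => g n x / n) atTop := fun x =>
    liminf_le_limsup (b1 x) (b2 x)
  have hl0 : ∀ x, 0 ≤ l x := fun x =>
    le_liminf_of_le (b1 x).isCoboundedUnder_ge (Eventually.of_forall fun n => (b x n).1)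
  have hlC : ∀ x, l x ≤ C := fun x => (hlL x).trans (h.limsup_le_C x)
  have hm : Measurable l := Measurable.liminf fun n => (hg n).div_const _
  have hi : Integrable l μ := integrable_bdd hm fun x => (abs_of_nonneg (hl0 x)).le.trans (hlC x)
  have hmono : ∀ j x, l x ≤ l (S^[j] x) := by
    intro j x
    induction j with
    | zero => exact le_rfl
    | succ j ih => rw [Function.iterate_succ_apply']; exact ih.trans (liminf_mono h _)
  have main : ∀ ε : ℝ, 0 < ε →
      ∫ x, limsup (fun n : ℕ => g n x / n) atTop ∂μ ≤ ∫ x, l x ∂μ + (ε + ε * C) := by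
    intro ε hε
    set B : ℕ → Set Y := fun M => ⋂ n ∈ Icc 1 M, {x | n * (l x + ε) < g n x} with hB
    have mB : ∀ M, MeasurableSet (B M) := fun M => MeasurableSet.biInter (to_countable _)
      fun n _ => measurableSet_lt (measurable_const.mul (hm.add_const ε)) (hg n)
    have h1 := tendsto_measure_iInter_atTop (μ := μ) (fun M => (mB M).nullMeasurableSet)
      (fun M N hMN => biInter_subset_biInter_left (Icc_subset_Icc_right hMN))
      ⟨0, measure_ne_top _ _⟩
    have h2 : ⋂ M, B M = ∅ := by
      refine eq_empty_of_forall_notMem fun x hx => ?_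
      obtain ⟨n, h3, h4⟩ := ((frequently_lt_of_liminf_lt (b1 x).isCoboundedUnder_ge
        (lt_add_of_pos_right (l x) hε)).and_eventually (eventually_ge_atTop 1)).exists
      have h5 : n * (l x + ε) < g n x := mem_iInter₂.1 (mem_iInter.1 hx n) n ⟨h4, le_rfl⟩
      rw [div_lt_iff₀' (by exact_mod_cast h4)] at h3
      linarith
    rw [h2, measure_empty] at h1
    obtain ⟨M, hM⟩ := (h1.eventually (gt_mem_nhds (ENNReal.ofReal_pos.2 hε))).exists
    have hM' : μ.real (B M) ≤ ε := ENNReal.toReal_le_of_le_ofReal hε.le hM.le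
    set ψ : Y → ℝ := fun x => l x + ε + (B M).indicator (fun _ => C) x with hψ
    have i0 : ∀ x, 0 ≤ (B M).indicator (fun _ => C) x := indicator_nonneg fun _ _ => h.C0
    have hψ0 : ∀ x, 0 ≤ ψ x := fun x => add_nonneg (add_nonneg (hl0 x) hε.le) (i0 x)
    have hψC : ∀ x, ψ x ≤ C + ε + C := fun x => add_le_add (add_le_add (hlC x) le_rfl)
      (indicator_apply_le' (fun _ => le_rfl) fun _ => h.C0)
    have mψ : Measurable ψ := (hm.add_const ε).add (measurable_const.indicator (mB M))
    have claim : ∀ N x, g N x ≤ birkhoffSum S ψ N x + C * M := by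
      intro N
      induction N using Nat.strong_induction_on with
      | _ N ih =>
      intro x
      rcases le_or_gt N M with hN | hN
      · exact (h.bound N x).trans ((mul_le_mul_of_nonneg_left (by exact_mod_cast hN) h.C0).trans
          (le_add_of_nonneg_left (birkhoffSum_bounds hψ0 hψC x N).1))
      have step : ∀ n, 1 ≤ n → n ≤ N → g n x ≤ birkhoffSum S ψ n x →
          g N x ≤ birkhoffSum S ψ N x + C * M := by
        intro n h1 h2 h3
        obtain ⟨m, rfl⟩ := Nat.exists_eq_add_of_le h2
        rw [birkhoffSum_add]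
        linarith [h.sub n m x, ih m (by omega) (S^[n] x)]
      by_cases hx : x ∈ B M
      · refine step 1 le_rfl (by omega) ?_
        have h3 := h.bound 1 x
        simp only [birkhoffSum_one, hψ, indicator_of_mem hx]
        push_cast at h3
        linarith [hl0 x]
      · simp only [hB, mem_iInter, mem_ofPred_eq, not_forall, not_lt] at hx
        obtain ⟨n, hn, h3⟩ := hx
        refine step n hn.1 (hn.2.trans hN.le) (h3.trans ?_)
        simpa [birkhoffSum, mul_add] using Finset.card_nsmul_le_sum (Finset.range n)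
          (fun i => ψ (S^[i] x)) (l x + ε) fun i _ =>
            le_add_of_le_of_nonneg (add_le_add (hmono i x) le_rfl) (i0 _)
    have h3 : ∫ x, ψ x ∂μ ≤ ∫ x, l x ∂μ + (ε + ε * C) := by
      have i1 : Integrable (fun x => l x + ε) μ := hi.add (integrable_const ε)
      rw [integral_add i1 ((integrable_const C).indicator (mB M)),
        integral_add hi (integrable_const ε), integral_indicator_const _ (mB M), integral_const,
        probReal_univ, one_smul, smul_eq_mul]
      linarith [mul_le_mul_of_nonneg_right hM' h.C0]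
    have h4 := (tendsto_const_nhds (x := ∫ x, ψ x ∂μ)).add
      (tendsto_const_div_atTop_nhds_zero_nat (C * M))
    rw [add_zero] at h4
    refine (le_of_tendsto_of_tendsto (h.tendsto_integral hS hg) h4 ?_).trans h3
    filter_upwards [eventually_gt_atTop 0] with N hN
    have hN0 : (0 : ℝ) < N := by exact_mod_cast hN
    have i2 : Integrable (birkhoffSum S ψ N) μ :=
      integrable_bdd (meas_sum hS.measurable mψ N)
        (abs_sum_le (fun x => (abs_of_nonneg (hψ0 x)).le.trans (hψC x)) N)
    have h5 := integral_mono (h.integrable hg N) (i2.add (integrable_const (C * M))) (claim N)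
    simp only [Pi.add_apply] at h5
    rw [integral_add i2 (integrable_const _), integral_birkhoffSum hS mψ hψ0 hψC, integral_const,
      probReal_univ, one_smul] at h5
    rw [div_le_iff₀' hN0, mul_add, mul_div_cancel₀ _ hN0.ne']
    exact h5
  have h1 : ∫ x, limsup (fun n : ℕ => g n x / n) atTop ∂μ ≤ ∫ x, l x ∂μ := by
    refine le_of_forall_pos_le_add fun ε hε => ?_
    have hC := h.C0
    refine (main (ε / (1 + C)) (by positivity)).trans (le_of_eq ?_)
    field_simp
  have h2 := (integral_eq_iff_of_ae_le hi (h.integrable_limsup hg)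
    (Eventually.of_forall hlL)).1 (le_antisymm (integral_mono hi (h.integrable_limsup hg) hlL) h1)
  filter_upwards [h2] with x hx
  exact tendsto_of_liminf_eq_limsup hx rfl (b1 x) (b2 x)

end Vale.Agent.N108X
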