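import Vale.Agent.N108X.Lower

/-!
# P108: equidistribution of the images of a vertical line
-/

open MeasureTheory Filter Set Topology

namespace Vale.Agent.N108X

open Vale.Agent.P108 Vale.Agent.P108.FT

lemma seq_bound {P S W e R R' : ℕ → ℝ} {r κ : ℝ} {N : ℕ} (hr : 0 ≤ r) (hr2 : r ≤ 1 / 2)
    (hκ : 0 ≤ κ) (hN : 2 * N * r ^ 2 ≤ 1) (P0 : P 0 = 1) (S0 : S 0 = 0) (W0 : W 0 = 0)
    (hP : ∀ i, P (i + 1) = (1 - e i) * P i - R i * S i) (hS : ∀ i, S (i + 1) = R i * P i)
    (hW : ∀ i, W (i + 1) = W i * R i + R' i * P i) (he : ∀ i, 0 ≤ e i ∧ e i ≤ 1)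
    (hR : ∀ i, |R i| ≤ r) (hR' : ∀ i, |R' i| ≤ κ) (i : ℕ) (hi : i ≤ N) :
    |P i| ≤ 1 + 2 * i * r ^ 2 ∧ |S i| ≤ 2 * r ∧
      |1 - P i| ≤ 2 * ∑ m ∈ Finset.range i, e m + 2 * i * r ^ 2 ∧ |W i| ≤ 4 * κ := by
  induction i with
  | zero => simp [P0, S0, W0, hr, hκ]
  | succ i ih =>
    obtain ⟨h1, h2, h3, h4⟩ := ih (by omega)
    have h5 : (i : ℝ) ≤ N := by exact_mod_cast (by omega : i ≤ N)
    have h6 : |P i| ≤ 2 := by nlinarith [sq_nonneg r]
    have h7 : |R i * S i| ≤ r * (2 * r) := by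
      rw [abs_mul]; exact mul_le_mul (hR i) h2 (abs_nonneg _) hr
    have h8 : |e i * P i| ≤ e i * 2 := by
      rw [abs_mul, abs_of_nonneg (he i).1]; exact mul_le_mul_of_nonneg_left h6 (he i).1
    have h9 : |(1 - e i) * P i| ≤ |P i| := by
      rw [abs_mul, abs_of_nonneg (by linarith [(he i).2])]
      nlinarith [abs_nonneg (P i), (he i).1]
    refine ⟨?_, ?_, ?_, ?_⟩
    · rw [hP]
      refine (abs_sub _ _).trans ?_
      push_cast
      nlinarith
    · rw [hS, abs_mul, mul_comm 2 r]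
      exact mul_le_mul (hR i) h6 (abs_nonneg _) hr
    · rw [hP, Finset.sum_range_succ,
        show 1 - ((1 - e i) * P i - R i * S i) = 1 - P i + e i * P i + R i * S i by ring]
      refine (abs_add_three _ _ _).trans ?_
      push_cast
      nlinarith
    · rw [hW]
      refine (abs_add_le _ _).trans ?_
      rw [abs_mul, abs_mul]
      have h10 := mul_le_mul h4 ((hR i).trans hr2) (abs_nonneg _) (by positivity)
      have h11 := mul_le_mul (hR' i) h6 (abs_nonneg _) hκ
      linarith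

/-- a smooth cut-off of `1 / a` -/
noncomputable def R (k τ x : ℝ) : ℝ := a k x / (a k x ^ 2 + τ ^ 2)

/-- its derivative -/
noncomputable def R' (k τ x : ℝ) : ℝ :=
  (τ ^ 2 - a k x ^ 2) / (a k x ^ 2 + τ ^ 2) ^ 2 *
    (-(4 * Real.pi ^ 2 * k * Real.sin (2 * Real.pi * x)))

/-- the defect `1 - a R` -/
noncomputable def ee (k τ x : ℝ) : ℝ := τ ^ 2 / (a k x ^ 2 + τ ^ 2)

variable {k τ : ℝ}

lemma hasDerivAt_a (k x : ℝ) :
    HasDerivAt (a k) (-(4 * Real.pi ^ 2 * k * Real.sin (2 * Real.pi * x))) x := by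
  have h := (((hasDerivAt_id x).const_mul (2 * Real.pi)).cos.const_mul
    (2 * Real.pi * k)).const_add 2
  refine HasDerivAt.congr_deriv (f := a k) h ?_
  simp only [id]
  ring

lemma hasDerivAt_R (hτ : 0 < τ) (x : ℝ) : HasDerivAt (R k τ) (R' k τ x) x := by
  have h0 : a k x ^ 2 + τ ^ 2 ≠ 0 := by positivity
  have h := (hasDerivAt_a k x).div (((hasDerivAt_a k x).pow 2).add_const (τ ^ 2)) h0
  refine HasDerivAt.congr_deriv (f := R k τ) h ?_
  simp only [R', Pi.pow_apply]
  field_simp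
  ring

lemma continuous_R (hτ : 0 < τ) : Continuous (R k τ) :=
  continuous_iff_continuousAt.2 fun x => (hasDerivAt_R hτ x).continuousAt

lemma continuous_R' (hτ : 0 < τ) : Continuous (R' k τ) := by
  have := continuous_a k
  refine Continuous.mul (Continuous.div (by fun_prop) (by fun_prop) fun x => ?_) (by fun_prop)
  positivity

lemma continuous_ee (hτ : 0 < τ) : Continuous (ee k τ) := by
  have := continuous_a k
  refine Continuous.div (by fun_prop) (by fun_prop) fun x => ?_
  positivity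

lemma ee_mem (hτ : 0 < τ) (x : ℝ) : 0 ≤ ee k τ x ∧ ee k τ x ≤ 1 :=
  ⟨by unfold ee; positivity, div_le_one_of_le₀ (by nlinarith [sq_nonneg (a k x)]) (by positivity)⟩

lemma R_mul (hτ : 0 < τ) (x : ℝ) : R k τ x * a k x = 1 - ee k τ x := by
  have h0 : a k x ^ 2 + τ ^ 2 ≠ 0 := by positivity
  unfold R ee
  field_simp
  ring

lemma abs_R (hτ : 0 < τ) (x : ℝ) : |R k τ x| ≤ 1 / (2 * τ) := by
  unfold R
  rw [abs_div, abs_of_pos (show 0 < a k x ^ 2 + τ ^ 2 by positivity),
    div_le_div_iff₀ (by positivity) (by positivity), ← sq_abs (a k x)]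
  nlinarith [sq_nonneg (|a k x| - τ)]

lemma abs_R' (hk : 0 ≤ k) (hτ : 0 < τ) (x : ℝ) : |R' k τ x| ≤ 40 * k / τ ^ 2 := by
  have h0 : 0 < a k x ^ 2 + τ ^ 2 := by positivity
  have h1 : |(τ ^ 2 - a k x ^ 2) / (a k x ^ 2 + τ ^ 2) ^ 2| ≤ 1 / τ ^ 2 := by
    have h2 : |τ ^ 2 - a k x ^ 2| ≤ a k x ^ 2 + τ ^ 2 :=
      abs_le.2 ⟨by nlinarith [sq_nonneg τ], by nlinarith [sq_nonneg (a k x)]⟩
    rw [abs_div, abs_of_pos (show 0 < (a k x ^ 2 + τ ^ 2) ^ 2 by positivity),
      div_le_div_iff₀ (by positivity) (by positivity), one_mul, sq (a k x ^ 2 + τ ^ 2)]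
    exact mul_le_mul h2 (by nlinarith [sq_nonneg (a k x)]) (by positivity) h0.le
  have h2 : |-(4 * Real.pi ^ 2 * k * Real.sin (2 * Real.pi * x))| ≤ 40 * k := by
    have h3 : Real.pi ^ 2 ≤ 10 := by nlinarith [Real.pi_lt_d2, Real.pi_pos]
    rw [abs_neg, abs_mul, abs_of_nonneg (show 0 ≤ 4 * Real.pi ^ 2 * k by positivity)]
    refine (mul_le_of_le_one_right (by positivity) (Real.abs_sin_le_one _)).trans ?_
    nlinarith
  unfold R'
  rw [abs_mul]
  refine (mul_le_mul h1 h2 (abs_nonneg _) (by positivity)).trans (le_of_eq ?_)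
  ring

/-- the first coordinate of the orbit of `(c, t)` -/
noncomputable def X (k c : ℝ) (i : ℕ) (t : ℝ) : ℝ := ((F k)^[i] (c, t)).1

/-- its derivative in `t` -/
noncomputable def D (k c : ℝ) : ℕ → ℝ → ℝ
  | 0, _ => 0
  | 1, _ => 1
  | i + 2, t => a k (X k c (i + 1) t) * D k c (i + 1) t - D k c i t

/-- the weight -/
noncomputable def w (k τ c : ℝ) : ℕ → ℝ → ℝ
  | 0, _ => 1
  | i + 1, t => w k τ c i t * R k τ (X k c (i + 1) t)

/-- the derivative of the weight -/
noncomputable def W (k τ c : ℝ) : ℕ → ℝ → ℝ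
  | 0, _ => 0
  | i + 1, t => W k τ c i t * R k τ (X k c (i + 1) t) +
      R' k τ (X k c (i + 1) t) * (w k τ c i t * D k c (i + 1) t)

lemma X_succ (k c : ℝ) (i : ℕ) : X k c (i + 2) = fun t => 2 * X k c (i + 1) t +
    k * Real.sin (2 * Real.pi * X k c (i + 1) t) - X k c i t := by
  ext t
  simp only [X, Function.iterate_succ_apply', F]
  ring

lemma hasDerivAt_X (k c : ℝ) (i : ℕ) : (∀ t, HasDerivAt (X k c i) (D k c i t) t) ∧
    ∀ t, HasDerivAt (X k c (i + 1)) (D k c (i + 1) t) t := by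
  induction i with
  | zero =>
    refine ⟨fun t => hasDerivAt_const t c, fun t => ?_⟩
    exact ((hasDerivAt_id t).const_add c).add_const (k * Real.sin (2 * Real.pi * c))
  | succ i ih =>
    refine ⟨ih.2, fun t => ?_⟩
    rw [X_succ]
    have h := (((ih.2 t).const_mul 2).add
      ((((ih.2 t).const_mul (2 * Real.pi)).sin).const_mul k)).sub (ih.1 t)
    refine HasDerivAt.congr_deriv h ?_
    simp only [D, a]
    ring

lemma continuous_X (k c : ℝ) (i : ℕ) : Continuous (X k c i) :=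
  continuous_iff_continuousAt.2 fun t => ((hasDerivAt_X k c i).1 t).continuousAt

lemma continuous_D (k c : ℝ) (i : ℕ) : Continuous (D k c i) ∧ Continuous (D k c (i + 1)) := by
  induction i with
  | zero => exact ⟨continuous_const, continuous_const⟩
  | succ i ih =>
    exact ⟨ih.2, (((continuous_a k).comp (continuous_X k c (i + 1))).mul ih.2).sub ih.1⟩

lemma hasDerivAt_w (hτ : 0 < τ) (c : ℝ) (i : ℕ) (t : ℝ) :
    HasDerivAt (w k τ c i) (W k τ c i t) t := by
  induction i with
  | zero => exact hasDerivAt_const t 1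
  | succ i ih =>
    have h := ih.mul ((hasDerivAt_R (k := k) hτ _).comp t ((hasDerivAt_X k c i).2 t))
    refine HasDerivAt.congr_deriv (f := w k τ c (i + 1)) h ?_
    simp only [W, Function.comp]
    ring

lemma continuous_w (hτ : 0 < τ) (c : ℝ) (i : ℕ) : Continuous (w k τ c i) :=
  continuous_iff_continuousAt.2 fun t => (hasDerivAt_w hτ c i t).continuousAt

lemma continuous_W (hτ : 0 < τ) (c : ℝ) (i : ℕ) : Continuous (W k τ c i) := by
  induction i with
  | zero => exact continuous_const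
  | succ i ih =>
    exact (ih.mul ((continuous_R hτ).comp (continuous_X k c (i + 1)))).add
      (((continuous_R' hτ).comp (continuous_X k c (i + 1))).mul
        ((continuous_w hτ c i).mul (continuous_D k c i).2))

lemma X_one (k c : ℝ) (i : ℕ) : ∃ n : ℤ, X k c i 1 = X k c i 0 + n := by
  obtain ⟨n, hn⟩ := F_iter_add_ip' k i 0 1
  refine ⟨n, ?_⟩
  have h := congrArg Prod.fst (hn (c, 0))
  simpa [ip, X] using h

lemma w_one (τ c : ℝ) (i : ℕ) : w k τ c i 1 = w k τ c i 0 := by
  induction i with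
  | zero => rfl
  | succ i ih =>
    obtain ⟨n, hn⟩ := X_one k c (i + 1)
    simp only [w, ih, hn, R, a_add_int]

/-- integration by parts along a vertical line -/
theorem line_le (hk : 0 ≤ k) (hτ : 1 ≤ τ) {N : ℕ} (hN : (N : ℝ) ≤ τ ^ 2) {f : ℝ → ℝ} {L : ℝ}
    (hf : Continuous f) (hp : Function.Periodic f 1) (h0 : ∫ x in (0 : ℝ)..1, f x = 0)
    (hL : ∀ x, |f x| ≤ L) (c : ℝ) {i : ℕ} (hi : i ≤ N) :
    |∫ t in (0 : ℝ)..1, f (X k c (i + 1) t)| ≤
      L * ((∫ t in (0 : ℝ)..1, 2 * ∑ m ∈ Finset.range i, ee k τ (X k c (m + 1) t)) +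
        (N / τ ^ 2 + 160 * k / τ ^ 2)) := by
  have hτ0 : 0 < τ := by linarith
  have hL0 : 0 ≤ L := (abs_nonneg _).trans (hL 0)
  set G : ℝ → ℝ := fun x => ∫ y in (0 : ℝ)..x, f y with hG
  have hG' : ∀ x, HasDerivAt G (f x) x := fun x => (hf.integral_hasStrictDerivAt 0 x).hasDerivAt
  have hGc : Continuous G := continuous_iff_continuousAt.2 fun x => (hG' x).continuousAt
  have hGp : Function.Periodic G 1 := by
    intro x
    have h1 := intervalIntegral.integral_add_adjacent_intervals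
      (hf.intervalIntegrable (μ := volume) 0 x) (hf.intervalIntegrable x (x + 1))
    rw [hp.intervalIntegral_add_eq x 0, zero_add, h0, add_zero] at h1
    exact h1.symm
  have hGn : ∀ x (n : ℤ), G (x + n) = G x := fun x n => by simpa using hGp.int_mul n x
  have hGL : ∀ x, |G x| ≤ L := by
    intro x
    rw [← Int.fract_add_floor x, hGn]
    have h1 := intervalIntegral.norm_integral_le_of_norm_le_const (a := 0) (b := Int.fract x)
      (f := f) (C := L) fun y _ => hL y
    rw [sub_zero, abs_of_nonneg (Int.fract_nonneg x)] at h1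
    exact le_trans h1 (mul_le_of_le_one_right hL0 (Int.fract_lt_one x).le)
  have cX := continuous_X k c
  have cf : Continuous fun t => f (X k c (i + 1) t) := hf.comp (cX _)
  have cΦ : Continuous fun t => f (X k c (i + 1) t) * D k c (i + 1) t * w k τ c i t +
      G (X k c (i + 1) t) * W k τ c i t :=
    ((cf.mul (continuous_D k c i).2).mul (continuous_w hτ0 c i)).add
      ((hGc.comp (cX _)).mul (continuous_W hτ0 c i))
  have h1 := intervalIntegral.integral_eq_sub_of_hasDerivAt (a := 0) (b := 1)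
    (f := fun t => G (X k c (i + 1) t) * w k τ c i t)
    (fun t _ => ((hG' _).comp t ((hasDerivAt_X k c i).2 t)).mul (hasDerivAt_w hτ0 c i t))
    (cΦ.intervalIntegrable _ _)
  obtain ⟨n, hn⟩ := X_one k c (i + 1)
  simp only [Function.comp] at h1
  rw [hn, hGn, w_one, sub_self] at h1
  have cE : Continuous fun t => 2 * ∑ m ∈ Finset.range i, ee k τ (X k c (m + 1) t) :=
    continuous_const.mul (continuous_finsetSum _ fun m _ => (continuous_ee hτ0).comp (cX _))
  have h2 := intervalIntegral.integral_sub (μ := volume) (cf.intervalIntegrable 0 1)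
    (cΦ.intervalIntegrable 0 1)
  rw [h1, sub_zero] at h2
  rw [← h2]
  refine (intervalIntegral.abs_integral_le_integral_abs zero_le_one).trans ?_
  have hi2 : IntervalIntegrable (fun t => L * (2 * ∑ m ∈ Finset.range i,
      ee k τ (X k c (m + 1) t) + (N / τ ^ 2 + 160 * k / τ ^ 2))) volume 0 1 :=
    (continuous_const.mul (cE.add continuous_const)).intervalIntegrable _ _
  refine (intervalIntegral.integral_mono_on zero_le_one ((cf.sub cΦ).abs.intervalIntegrable _ _)
    hi2 fun t _ => ?_).trans (le_of_eq ?_)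
  · have hr : 2 * N * (1 / (2 * τ)) ^ 2 ≤ N / τ ^ 2 := by
      rw [show 2 * N * (1 / (2 * τ)) ^ 2 = N / τ ^ 2 / 2 by field_simp]
      exact half_le_self (by positivity)
    obtain ⟨-, -, h3, h4⟩ := seq_bound (P := fun i => w k τ c i t * D k c (i + 1) t)
      (S := fun i => w k τ c i t * D k c i t) (W := fun i => W k τ c i t)
      (e := fun i => ee k τ (X k c (i + 1) t)) (R := fun i => R k τ (X k c (i + 1) t))
      (R' := fun i => R' k τ (X k c (i + 1) t)) (r := 1 / (2 * τ)) (κ := 40 * k / τ ^ 2) (N := N)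
      (by positivity) (one_div_le_one_div_of_le (by norm_num) (by linarith)) (by positivity)
      (hr.trans (div_le_one_of_le₀ hN (by positivity))) (by simp [w, D]) (by simp [D]) rfl
      (fun i => by simp only [w, D, ← R_mul hτ0]; ring) (fun i => by simp only [w]; ring)
      (fun i => rfl) (fun i => ee_mem hτ0 _) (fun i => abs_R hτ0 _) (fun i => abs_R' hk hτ0 _) i hi
    have h5 : 2 * i * (1 / (2 * τ)) ^ 2 ≤ N / τ ^ 2 := by
      refine le_trans ?_ hr
      gcongr
    have e : f (X k c (i + 1) t) - (f (X k c (i + 1) t) * D k c (i + 1) t * w k τ c i t +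
        G (X k c (i + 1) t) * W k τ c i t) = f (X k c (i + 1) t) *
          (1 - w k τ c i t * D k c (i + 1) t) - G (X k c (i + 1) t) * W k τ c i t := by ring
    rw [Pi.sub_apply, e]
    refine (abs_sub _ _).trans ?_
    rw [abs_mul, abs_mul]
    have h6 := mul_le_mul (hL (X k c (i + 1) t)) (h3.trans (add_le_add le_rfl h5))
      (abs_nonneg _) hL0
    have h7 := mul_le_mul (hGL (X k c (i + 1) t)) h4 (abs_nonneg _) hL0
    refine (add_le_add h6 h7).trans (le_of_eq ?_)
    ring
  · rw [intervalIntegral.integral_const_mul,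
      intervalIntegral.integral_add (cE.intervalIntegrable _ _) intervalIntegrable_const]
    simp

end Vale.Agent.N108X
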