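import Vale.Agent.N108X.Means

/-!
# P108: the lower bound with an explicit threshold and an explicit error

The proof is that of `Vale.Agent.N108.ks_lower`, with explicit constants.
-/

open MeasureTheory Filter Set Topology
open scoped ENNReal

namespace Vale.Agent.N108X

open Vale.Agent.P108 Vale.Agent.P108.FT Vale.Agent.P108.Dyn Vale.Agent.P108.H504 P108C
open Vale.Agent.P108.H954 Vale.Agent.P109.KS Vale.Agent.N108
open Vale.Agent.P108.H786 (ao)
open Vale.Agent.P108.Sk (Setting GoodWin LongCl Bset cc Nset NearBound EBound NcBound EquiB Decor)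

theorem Huge.small {k y C : ℝ} (H : Huge k) (hy : 1 / 40000 ≤ y) (hC0 : 0 ≤ C) (hC : C ≤ 10 ^ 9) :
    C * (Real.log k ^ 2 * k ^ (-y)) ≤ k ^ (-(1 / 50000) : ℝ) := by
  have h1 := H.log_sq_le (y := 1 / 200000) (by norm_num) hC0
    ((mul_le_mul_of_nonneg_right hC (by norm_num)).trans (by norm_num))
  have h2 : k ^ (-y) ≤ k ^ (-(1 / 40000) : ℝ) :=
    Real.rpow_le_rpow_of_exponent_le H.one_le (by linarith)
  have h3 : k ^ (-(1 / 50000) : ℝ) = k ^ (1 / 200000 : ℝ) * k ^ (-(1 / 40000) : ℝ) := by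
    rw [← Real.rpow_add H.k0]; norm_num
  rw [h3, ← mul_assoc]
  exact mul_le_mul h1 h2 (Real.rpow_nonneg H.k0.le _) (Real.rpow_nonneg H.k0.le _)

theorem lo_meanX {k : ℝ} (H : Huge k) : Real.log (Real.pi * k) - k ^ (-(1 / 50000) : ℝ) / 12 ≤
    ∫ z, Real.log (max (|a k z.1| - 4) 1) ∂mQ := by
  have hk0 := H.k0
  have hx := H.x
  have h1 := lo_mean H.one_le (H.le_rpow (y := 1 / 2) (C := 8) (by norm_num) (by norm_num))
  have h2 : 8 / k ^ (1 / 2 : ℝ) = 8 * k ^ (-(1 / 2) : ℝ) := by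
    rw [Real.rpow_neg hk0.le, div_eq_mul_inv]
  have h3 : k ^ (1 / 2 : ℝ) / k = k ^ (-(1 / 2) : ℝ) := by
    rw [← Real.rpow_sub_one hk0.ne']; norm_num
  have h4 := H.small (y := 1 / 2) (C := 12) (by norm_num) (by norm_num) (by norm_num)
  have h5 : 8 + 1 / 2 * Real.log k ≤ Real.log k ^ 2 := by nlinarith
  have h6 := mul_le_mul_of_nonneg_right h5 (Real.rpow_nonneg hk0.le (-(1 / 2) : ℝ))
  rw [h2, h3, Real.log_rpow hk0] at h1
  linarith

theorem up_meanX {k : ℝ} (H : Huge k) : ∫ z, Real.log (|a k z.1| + 6) ∂mQ ≤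
    Real.log (Real.pi * k) + k ^ (-(1 / 50000) : ℝ) / 12 := by
  have hk0 := H.k0
  have hx := H.x
  have h0 : 0 < k ^ (-(1 / 2) : ℝ) := Real.rpow_pos_of_pos hk0 _
  have h2 : 2 ≤ k ^ (1 / 2 : ℝ) := H.le_rpow (by norm_num) (by norm_num)
  have h3 : k ^ (-(1 / 2) : ℝ) ≤ 1 / 2 := by
    rw [Real.rpow_neg hk0.le, one_div (2 : ℝ)]
    exact inv_anti₀ (by norm_num) (by rwa [one_div] at h2)
  have h1 := up_mean H.one_le h0 h3
  have h4 : 5 / (k * k ^ (-(1 / 2) : ℝ)) ^ 2 ≤ 5 * k ^ (-(1 / 2) : ℝ) := by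
    have e : k * k ^ (-(1 / 2) : ℝ) = k ^ (1 / 2 : ℝ) := by
      rw [mul_comm, ← Real.rpow_add_one hk0.ne']; norm_num
    rw [e, Real.rpow_neg hk0.le, ← div_eq_mul_inv]
    exact div_le_div_of_nonneg_left (by norm_num) (by linarith) (by nlinarith)
  have h5 := H.small (y := 1 / 2) (C := 12) (by norm_num) (by norm_num) (by norm_num)
  have h6 : 6 ≤ Real.log k ^ 2 := by nlinarith
  have h7 := mul_le_mul_of_nonneg_right h6 h0.le
  linarith

/-- **Lower bound.** -/
theorem lowerX {k : ℝ} (H : Huge k) :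
    ENNReal.ofReal (Real.log (Real.pi * k) - k ^ (-(1 / 50000) : ℝ) / 4) ≤ ksEntropy mQ (T k) ∧
      Real.log (Real.pi * k) - k ^ (-(1 / 50000) : ℝ) / 4 ≤ ent k := by
  have hG := robustX H
  have hI := lo_meanX H
  have hsm := H.small (y := 1 / 40000) (C := 12) le_rfl (by norm_num) (by norm_num)
  obtain ⟨ε, hε⟩ : ∃ ε, ε = k ^ (-(1 / 50000) : ℝ) / 4 := ⟨_, rfl⟩
  rw [show k ^ (-(1 / 50000) : ℝ) / 12 = ε / 3 by rw [hε]; ring] at hI
  rw [show k ^ (-(1 / 50000) : ℝ) = 4 * ε by rw [hε]; ring] at hsm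
  rw [← hε]
  generalize hW' : (4000001 : ℕ) = W at hG
  have hW : (W : ℝ) = 4000001 := by rw [← hW']; norm_num
  have hc0 : (0 : ℝ) < Sk.c0 := by norm_num
  have hk200 : (2 : ℝ) ^ 200 ≤ k := H.pow_ge (by norm_num) 200 (by norm_num)
  have hk9 : (9 : ℝ) ≤ k := le_trans (by norm_num) hk200
  have hk0 : (0 : ℝ) < k := by linarith
  obtain ⟨s, hs, hEq, hmass⟩ := massX H
  set η : ℝ := k ^ (-(1 / 40000) : ℝ) with hη
  obtain ⟨l, hl⟩ : ∃ l, l = η := ⟨_, rfl⟩
  have hη0 : 0 < η := Real.rpow_pos_of_pos hk0 _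
  have hη1 : η ≤ 1 := Real.rpow_le_one_of_one_le_of_nonpos (by linarith) (by norm_num)
  have hl0 : 0 < l := hl ▸ hη0
  have hl1 : l ≤ 1 := hl ▸ hη1
  have hx := H.x
  have hlε : l ≤ ε / 3 := by
    have h1 : 1 ≤ Real.log k ^ 2 := one_le_pow₀ (by linarith)
    have h2 := mul_le_mul_of_nonneg_right h1 hη0.le
    rw [hl]
    linarith
  have herr : η * (-Real.log l + 2 * (2 * (5 * W + 4) + 18 / Sk.c0 + 8) * Real.log k) ≤
      ε / 3 := by
    have h1 : Real.log l = -(1 / 40000) * Real.log k := by rw [hl, hη, Real.log_rpow hk0]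
    have h2 : -Real.log l + 2 * (2 * (5 * W + 4) + 18 / Sk.c0 + 8) * Real.log k ≤
        Real.log k ^ 2 := by
      have h3 : (2 * (2 * (5 * W + 4) + 18 / Sk.c0 + 8) : ℝ) ≤ 10 ^ 11 - 1 := by
        rw [hW]; norm_num
      have h4 := mul_le_mul_of_nonneg_right h3 H.log_pos.le
      have h5 := mul_le_mul_of_nonneg_right hx H.log_pos.le
      rw [h1, sq]
      linarith [H.log_pos]
    have h3 := mul_le_mul_of_nonneg_left h2 hη0.le
    linarith
  have hηη : k ^ (-(1 / 20000) : ℝ) = η * η := by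
    rw [hη, ← Real.rpow_add hk0]; norm_num
  rw [hηη] at hmass
  set N : ℕ := ⌈40 * k⌉₊ with hNdef
  have hN40 : 40 * k ≤ N := Nat.le_ceil _
  have hN0 : 0 < N := Nat.ceil_pos.2 (by positivity)
  have : NeZero N := ⟨hN0.ne'⟩
  set b : ℕ := ⌈(9 * k) ^ (5 * W + 3)⌉₊ with hb
  have hbB : (9 * k) ^ (5 * W + 3) ≤ b := Nat.le_ceil _
  have hb1 : 1 ≤ b := Nat.ceil_pos.2 (by positivity)
  have hb0 : (0 : ℝ) < b := by exact_mod_cast hb1
  have hB1 : (1 : ℝ) ≤ 9 * k := by linarith
  have hblog : Real.log b ≤ (5 * W + 4) * Real.log (9 * k) := by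
    refine (log_ceil_le (by linarith) _).trans (le_of_eq ?_)
    push_cast
    ring
  have hlogb : 0 ≤ Real.log b := Real.log_nonneg (by exact_mod_cast hb1)
  set L := Real.log (9 * k) with hL
  have hL2 : L ≤ 2 * Real.log k := by
    rw [hL, Real.log_mul (by norm_num) hk0.ne', two_mul]
    have := Real.log_le_log (by norm_num) hk9
    linarith
  have hL0 : 0 ≤ L := Real.log_nonneg hB1
  have hlogl : 0 ≤ -Real.log l := neg_nonneg.2 (Real.log_nonpos hl0.le hl1)
  set X : ℝ × ℝ → Set ℤ := fun z => ClInf cc (Bset k s (ao k z)) with hX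
  set E : ℝ := l + η * (-Real.log l + 2 * Real.log b + 2 * L / Sk.c0) with hE
  set γ : ℝ := 2 * (8 * (η * η)) / Sk.c0 + 8 * (η * η) / η with hγ
  set I : ℝ := ∫ z, psi k N (cod N z) ∂mQ with hI'
  have hcod : ∀ j, MeasurableSet (cod N ⁻¹' {j}) := fun j =>
    measurable_cod N (measurableSet_singleton j)
  have hψL : ∀ j, psi k N j ≤ L := by
    intro j
    refine Real.log_le_log (lt_max_of_lt_right one_pos) (max_le ?_ hB1)
    have h1 := abs_a_le k (((j : ℕ) : ℝ) / N)
    rw [abs_of_pos hk0] at h1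
    nlinarith [Real.pi_lt_d2]
  have hIge : Real.log (Real.pi * k) - ε / 3 ≤ I := by
    refine hI.trans (integral_mono_of_nonneg
      (Eventually.of_forall fun z => Real.log_nonneg (le_max_right _ _))
      (integrable_fin hcod (psi k N)) (Eventually.of_forall fun z => ?_))
    refine Real.log_le_log (lt_max_of_lt_right one_pos) (max_le_max ?_ le_rfl)
    have h1 := cell_a hk0.le hN40 z
    have h2 := abs_sub_abs_le_abs_sub (FT.a k z.1) (FT.a k (((cod N z : ℕ) : ℝ) / N))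
    rw [abs_sub_comm] at h2
    linarith
  have hsmall : E + γ * L ≤ 2 * ε / 3 := by
    have h1 := err_le hη0 hη1 hc0 hL0 hL2 (by positivity) hblog herr
    rw [← hγ] at h1
    rw [hE]
    linarith only [h1, hlε]
  have hlog6 : 0 ≤ Real.log 6 := Real.log_nonneg (by norm_num)
  have hGm := fun n => measurableSet_GS (c := Sk.c0) (η := η) hEq n
  have hint : ∀ n : ℕ, 1 ≤ n → n * (I - E - γ * L) - (Real.log 6 + 2 * L) ≤
      ∫ z in GS Sk.c0 η X n, (∑ i, psi k N (name (T k) (cod N) n z i) -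
        (E * n + (Real.log 6 + 2 * L))) ∂mQ := by
    intro n hn
    have h1 := int_name_ge (mp_T k) hcod hψL (K := E * n + (Real.log 6 + 2 * L))
      (by positivity) n (hGm n)
    have h2 := mass_GS' hc0 hη0 hEq hmass hn
    have h3 := mul_le_mul_of_nonneg_right h2 (show 0 ≤ n * L by positivity)
    rw [← hγ] at h3
    rw [← hI'] at h1
    clear_value I γ E
    linarith
  have hlyap : I - E - γ * L ≤ ent k := by
    have h1 : Tendsto (fun n : ℕ => (I - E - γ * L) +
        (I - E - γ * L - (Real.log 6 + 2 * L)) / ((n + 1 : ℕ) : ℝ)) atTop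
        (𝓝 (I - E - γ * L + 0)) := tendsto_const_nhds.add
      ((tendsto_const_div_atTop_nhds_zero_nat _).comp (tendsto_add_atTop_nat 1))
    rw [add_zero] at h1
    refine le_of_tendsto_of_tendsto h1 ((tendsto_u k).comp (tendsto_add_atTop_nat 1)) ?_
    filter_upwards [eventually_ge_atTop 1] with n hn
    have hn0 : (0 : ℝ) < ((n + 1 : ℕ) : ℝ) := by positivity
    have hgi : Integrable (g k (n + 1)) mQ := integrable_bdd (measurable_g_z k _) fun z => by
      rw [abs_of_nonneg (g_nonneg k _ z)]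
      exact g_bound k _ z
    have h2 := hint (n + 2) (by omega)
    have h3 : ∫ z in GS Sk.c0 η X (n + 2), (∑ i, psi k N (name (T k) (cod N) (n + 2) z i) -
        (E * ((n + 2 : ℕ) : ℝ) + (Real.log 6 + 2 * L))) ∂mQ ≤
        ∫ z in GS Sk.c0 η X (n + 2), g k (n + 1) z ∂mQ := by
      refine setIntegral_mono_on (integrable_fin
        (measurableSet_name (mp_T k).measurable hcod (n + 2))
        fun w => ∑ i, psi k N (w i) - _).integrableOn hgi.integrableOn (hGm _) fun z hz => ?_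
      have h4 := g_ge_of (grow_sharp hk200 hs Sk.longCl hG hN40 hbB (n := n + 2)
        (by omega) z hz z hz.1 rfl fun p q _ _ _ _ => by
          simp only [dy, sub_self, abs_zero, and_self]
          positivity)
      have h5 : Real.log 2 ≤ Real.log 6 := Real.log_le_log (by norm_num) (by norm_num)
      have h6 : E * ((n + 2 : ℕ) : ℝ) = (l + η * (-Real.log l + 2 * Real.log b)) * ((n + 2 : ℕ) : ℝ)
          + 2 * L * (η * ((n + 2 : ℕ) : ℝ) / Sk.c0) := by rw [hE]; ring
      have h7 : 0 ≤ (l + η * (-Real.log l + 2 * Real.log b)) * ((n + 2 : ℕ) : ℝ) := by positivity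
      linarith
    have h4 : ∫ z in GS Sk.c0 η X (n + 2), g k (n + 1) z ∂mQ ≤ u (n + 1) k :=
      setIntegral_le_integral hgi (Eventually.of_forall (g_nonneg k _))
    simp only [Function.comp]
    rw [le_div_iff₀ hn0, add_mul, div_mul_cancel₀ _ hn0.ne']
    have h5 := h2.trans (h3.trans h4)
    push_cast at h5 ⊢
    clear_value I γ E
    linarith
  refine ⟨le_trans (ENNReal.ofReal_le_ofReal (show _ ≤ I - E - γ * L by linarith))
    (ks_ge_of_linear (measurable_cod N) (C := Real.log 6 + 2 * L + Real.log 2) ?_), by linarith⟩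
  filter_upwards [eventually_ge_atTop 3] with n hn
  have h1 := shannon_ge_int (μ := mQ) (measurableSet_name (mp_T k).measurable hcod n) (hGm n)
    (c := fun w => ∑ i, psi k N (w i) - (E * n + (Real.log 6 + 2 * L))) fun w => ?_
  · linarith [hint n (by omega)]
  · have hηn : 0 ≤ η * n := by positivity
    have h2 := cyl_le' hl0 hl1 (k := k) (N := N) hb1 (n := n) hEq.meas
      (G := name (T k) (cod N) n ⁻¹' {w} ∩ GS Sk.c0 η X n)
      ((measurableSet_name (mp_T k).measurable hcod n w).inter (hGm n)) (fun z hz => hz.2.1)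
      (s := ⌊η * n⌋₊) (fun z hz => Nat.le_floor hz.2.2.2.2)
      (ε := Real.exp (-(∑ i, psi k N (w i) - 2 * L * (1 + η * n / Sk.c0)))) (Real.exp_pos _).le
      (fun z hz z' hz' h1 h2 _ h3 => by
        have h4 := dy_le (by linarith) hN40 hn hz.2.1 hz'.2.1 h1 h2
          (grow_sharp hk200 hs Sk.longCl hG hN40 hbB hn z hz.2 z' hz'.2.1 h2 h3)
        rwa [mem_singleton_iff.1 hz.1] at h4) w
    rw [← inter_assoc, inter_self] at h2
    exact h2.trans (cyl_num hl0 hl1 (by exact_mod_cast hb1) (Nat.floor_le hηn))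

end Vale.Agent.N108X
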