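import Vale.Agent.N108X.Limit

/-!
# P108: the explicit theorem
-/

open MeasureTheory Filter Set Topology
open scoped ENNReal

namespace Vale.Agent.N108X

open Vale.Agent.P108 Vale.Agent.P108.Tor Vale.Agent.P109.KS Vale.Agent.N108

lemma prob : IsProbabilityMeasure (volume : Measure (UnitAddCircle × UnitAddCircle)) := by
  have : IsProbabilityMeasure (volume : Measure UnitAddCircle) := ⟨UnitAddCircle.measure_univ⟩
  exact Measure.prod.instIsProbabilityMeasure _ _

lemma integrable_expo (k : ℝ) : Integrable (expo k) := by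
  rw [funext (expo_eq k)]
  exact mp_sg.integrable_comp_of_integrable (integrable_lyap k)

lemma tendsto_grow (k : ℝ) : ∀ᵐ p, Tendsto (grow k p) atTop (𝓝 (expo k p)) := by
  obtain ⟨C, h⟩ := grow_sub k
  filter_upwards [mp_sg.quasiMeasurePreserving.ae
    (kingman (subCocycle_g k) (mp_T k) (measurable_g_z k))] with p hp
  rw [expo_eq, lyap_eq]
  refine hp.congr_dist (squeeze_zero (fun _ => dist_nonneg) (fun n => ?_)
    (tendsto_const_div_atTop_nhds_zero_nat C))
  rw [dist_comm]
  exact h p n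

theorem explicit {k : ℝ} (hk : Real.exp (10 ^ 11) ≤ |k|) :
    0 < entropy volume (std k) ∧ entropy volume (std k) < ⊤ ∧
      |(entropy volume (std k)).toReal - Real.log (Real.pi * |k|)| ≤ |k| ^ (-(1 / 50000) : ℝ) ∧
      ∫ p, |expo k p - Real.log (Real.pi * |k|)| ≤ |k| ^ (-(1 / 50000) : ℝ) ∧
      volume.real {p | expo k p = 0} ≤ |k| ^ (-(1 / 50000) : ℝ) := by
  have := prob
  have h0 : 0 < |k| := (Real.exp_pos _).trans_le hk
  have H : Huge |k| := ⟨h0, (Real.le_log_iff_exp_le h0).2 hk⟩
  have e1 : entropy volume (std k) = ksEntropy volume (stdMap |k|) := by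
    rw [std_eq, entropy_eq (mp_stdMap k)]
    rcases le_total 0 k with h | h
    · rw [abs_of_nonneg h]
    · rw [abs_of_nonpos h, ksEntropy_neg]
  have h1 := (lowerX H).1.trans (ksEntropy_torus_ge _)
  have h2 := (ks_upper h0.le).trans (ENNReal.ofReal_le_ofReal (up_meanX H))
  have h3 := concX H
  have h4 := H.rpow_neg_le_one (y := -(1 / 50000)) (by norm_num)
  have h5 : 0 ≤ |k| ^ (-(1 / 50000) : ℝ) := Real.rpow_nonneg h0.le _
  have h6 : 1 ≤ Real.log (Real.pi * |k|) := le_trans (le_trans (by norm_num) H.x)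
    (Real.log_le_log h0 (le_mul_of_one_le_left h0.le (by linarith [Real.pi_gt_three])))
  generalize |k| ^ (-(1 / 50000) : ℝ) = δ at *
  generalize Real.log (Real.pi * |k|) = c at *
  have m : ∀ κ, Measurable fun z => |lyap κ z - c| := fun κ =>
    ((measurable_lyap κ).sub_const c).abs
  have h7 : ∫ p, |expo k p - c| ≤ δ := by
    have e2 : ∫ p, |expo k p - c| = ∫ z, |lyap k z - c| ∂mQ := by
      simp only [expo_eq]
      rw [← mp_sg.map_eq, integral_map mp_sg.measurable.aemeasurable (m k).aestronglyMeasurable]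
    rw [e2]
    rcases le_total 0 k with h | h
    · rwa [abs_of_nonneg h] at h3
    · rw [abs_of_nonpos h] at h3
      rw [← int_comp mp_trQ (m k)]
      simpa only [lyap_trQ] using h3
  rw [e1]
  have h8 := h2.trans_lt ENNReal.ofReal_lt_top
  refine ⟨lt_of_lt_of_le (ENNReal.ofReal_pos.2 (by linarith)) h1, h8, abs_le.2 ⟨?_, ?_⟩, h7, ?_⟩
  · linarith [(ENNReal.ofReal_le_iff_le_toReal h8.ne).1 h1]
  · linarith [ENNReal.toReal_le_of_le_ofReal (by linarith) h2]
  · have h9 := mul_meas_ge_le_integral_of_nonneg (μ := volume)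
      (Eventually.of_forall fun p => abs_nonneg (expo k p - c))
      ((integrable_expo k).sub (integrable_const c)).abs 1
    rw [one_mul] at h9
    refine (measureReal_mono fun p (hp : expo k p = 0) => ?_).trans (h9.trans h7)
    simp only [mem_ofPred_eq, hp, zero_sub, abs_neg]
    exact h6.trans (le_abs_self c)

theorem sinaiX : 0 < volume {k : ℝ | 0 < entropy volume (std k)} := by
  rw [volume_top_of ⟨_, fun k hk => (explicit hk).1⟩]
  exact ENNReal.zero_lt_top

theorem sound (k : ℝ) :
    (∀ x y : ℝ, std k (x, y) = (((x + y + k * Real.sin (2 * Real.pi * x) : ℝ) : UnitAddCircle),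
      ((y + k * Real.sin (2 * Real.pi * x) : ℝ) : UnitAddCircle))) ∧
    MeasurePreserving (std k) ∧
    (∀ P, IsPart P → ∃ h, Tendsto (block volume (std k) P) atTop (𝓝 h)) ∧
    Integrable (expo k) ∧ ∀ᵐ p, Tendsto (grow k p) atTop (𝓝 (expo k p)) := by
  have := prob
  rw [std_eq]
  refine ⟨stdMap_coe k, mp_stdMap k, fun P hP => ?_, integrable_expo k, tendsto_grow k⟩
  obtain ⟨-, -, -, -, h⟩ := hP.code (mp_stdMap k)
  exact ⟨_, h⟩

end Vale.Agent.N108X
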