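import Vale.Agent.N108X.BlkB

/-!
# P108: the means of `log (|a| ± C)` with an explicit error
-/

open MeasureTheory Filter Set Topology

namespace Vale.Agent.N108X

open Vale.Agent.P108 Vale.Agent.P108.FT Vale.Agent.N108

lemma real_E1 {k t : ℝ} (hk : 1 ≤ k) (ht : 0 ≤ t) :
    mQ.real {z : ℝ × ℝ | |a k z.1| ≤ t} ≤ t / k := by
  have h := volume_E1 (k := k) (by rwa [abs_of_pos (by linarith)]) ht
  rw [abs_of_pos (by linarith : (0 : ℝ) < k)] at h
  have e : mQ {z : ℝ × ℝ | |a k z.1| ≤ t} = (volume.restrict (Ico (0 : ℝ) 1)) (E1 k t) := by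
    have : {z : ℝ × ℝ | |a k z.1| ≤ t} = E1 k t ×ˢ univ := by
      ext z
      simp [E1]
    rw [this, mQ_eq, Measure.prod_prod, measure_univ, mul_one]
  rw [measureReal_def, e]
  exact ENNReal.toReal_le_of_le_ofReal (by positivity) h

lemma meas_E1 (k t : ℝ) : MeasurableSet {z : ℝ × ℝ | |a k z.1| ≤ t} :=
  measurableSet_le ((continuous_a k).measurable.comp measurable_fst).abs measurable_const

lemma log_split {x t : ℝ} (hx : 0 ≤ x) (ht : 8 ≤ t) :
    Real.log x ≤ Real.log (max (x - 4) 1) + 8 / t + if x ≤ t then Real.log t else 0 := by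
  have h0 : 0 ≤ Real.log (max (x - 4) 1) := Real.log_nonneg (le_max_right _ _)
  have h1 : 0 ≤ 8 / t := by positivity
  split_ifs with h
  · rcases hx.eq_or_lt with h2 | h2
    · have h3 : Real.log x = 0 := by rw [← h2, Real.log_zero]
      have := Real.log_nonneg (show 1 ≤ t by linarith)
      linarith
    · linarith [Real.log_le_log h2 h]
  · push Not at h
    rw [max_eq_left (by linarith), add_zero]
    have h2 : Real.log (x / (x - 4)) ≤ x / (x - 4) - 1 :=
      Real.log_le_sub_one_of_pos (div_pos (by linarith) (by linarith))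
    rw [Real.log_div (by linarith) (by linarith)] at h2
    have h3 : x / (x - 4) - 1 ≤ 8 / t := by
      rw [div_sub_one (by linarith), div_le_div_iff₀ (by linarith) (by linarith)]
      nlinarith
    linarith

/-- the lower mean -/
theorem lo_mean {k t : ℝ} (hk : 1 ≤ k) (ht : 8 ≤ t) :
    Real.log (Real.pi * k) - 8 / t - t / k * Real.log t ≤
      ∫ z, Real.log (max (|a k z.1| - 4) 1) ∂mQ := by
  have hk0 : 0 < k := by linarith
  have hπ := Real.pi_gt_three
  have hlt : 0 ≤ Real.log t := Real.log_nonneg (by linarith)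
  have h1 := (log_a_mQ k).2
  rw [integral_log_abs_a (by rw [abs_of_pos hk0]; nlinarith), abs_of_pos hk0] at h1
  have hc : Continuous fun x => Real.log (max (|a k x| - 4) 1) :=
    Continuous.log (((continuous_a k).abs.sub continuous_const).max continuous_const)
      fun x => (lt_max_of_lt_right one_pos).ne'
  have hi : Integrable (fun z : ℝ × ℝ => Real.log (max (|a k z.1| - 4) 1)) mQ := by
    refine integrable_bdd (hc.measurable.comp measurable_fst)
      (C := Real.log (2 + 2 * Real.pi * |k|)) fun z => ?_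
    rw [abs_of_nonneg (Real.log_nonneg (le_max_right _ _))]
    refine Real.log_le_log (lt_max_of_lt_right one_pos) (max_le ?_ ?_)
    · linarith [abs_a_le k z.1]
    · have : 0 ≤ 2 * Real.pi * |k| := by positivity
      linarith
  have hj : Integrable ({z : ℝ × ℝ | |a k z.1| ≤ t}.indicator fun _ => Real.log t) mQ :=
    (integrable_const _).indicator (meas_E1 k t)
  have h2 : ∫ z, Real.log |a k z.1| ∂mQ ≤ ∫ z, (Real.log (max (|a k z.1| - 4) 1) + 8 / t +
      {z : ℝ × ℝ | |a k z.1| ≤ t}.indicator (fun _ => Real.log t) z) ∂mQ :=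
    integral_mono (log_a_mQ k).1 ((hi.add (integrable_const _)).add hj) fun z => by
      have := log_split (abs_nonneg (a k z.1)) ht
      simpa only [indicator, mem_ofPred_eq] using this
  have hi' : Integrable (fun z : ℝ × ℝ => Real.log (max (|a k z.1| - 4) 1) + 8 / t) mQ :=
    hi.add (integrable_const _)
  rw [integral_add hi' hj, integral_add hi (integrable_const _),
    integral_const, probReal_univ, one_smul, integral_indicator_const _ (meas_E1 k t),
    smul_eq_mul] at h2
  have h3 := mul_le_mul_of_nonneg_right (real_E1 hk (show 0 ≤ t by linarith)) hlt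
  linarith

lemma norm_prod (r θ : ℝ) :
    (‖circleMap 0 1 θ - r * Complex.I‖ * ‖circleMap 0 1 θ - -(r * Complex.I)‖) ^ 2 =
      (1 - r ^ 2) ^ 2 + 4 * r ^ 2 * Real.cos θ ^ 2 := by
  rw [mul_pow, ← Complex.normSq_eq_norm_sq, ← Complex.normSq_eq_norm_sq, circleMap_zero_one]
  simp only [Complex.normSq_apply, Complex.sub_re, Complex.sub_im, Complex.neg_re, Complex.neg_im,
    Complex.mul_re, Complex.mul_im, Complex.ofReal_re, Complex.ofReal_im, Complex.I_re,
    Complex.I_im, Complex.exp_ofReal_mul_I_re, Complex.exp_ofReal_mul_I_im]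
  have h := Real.sin_sq_add_cos_sq θ
  generalize Real.sin θ = s at *
  generalize Real.cos θ = c at *
  have e : s ^ 2 = 1 - c ^ 2 := by linarith
  calc _ = (c ^ 2 + s ^ 2 + r ^ 2) ^ 2 - 4 * r ^ 2 * s ^ 2 := by ring
    _ = _ := by rw [e]; ring

lemma int_log_sq {r : ℝ} (h0 : 0 ≤ r) (h1 : r < 1) :
    ∫ x in (0 : ℝ)..1, Real.log ((1 - r ^ 2) ^ 2 + 4 * r ^ 2 * Real.cos (2 * Real.pi * x) ^ 2)
      = 0 := by
  have hπ := Real.pi_pos
  have h2 := intervalIntegral.integral_comp_mul_left (a := 0) (b := 1)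
    (f := fun θ => Real.log ((1 - r ^ 2) ^ 2 + 4 * r ^ 2 * Real.cos θ ^ 2)) (c := 2 * Real.pi)
    (by positivity)
  simp only [mul_zero, mul_one, smul_eq_mul] at h2
  have hr : 0 < 1 - r ^ 2 := by nlinarith
  have e : ∀ θ : ℝ, Real.log ((1 - r ^ 2) ^ 2 + 4 * r ^ 2 * Real.cos θ ^ 2) =
      2 * (Real.log ‖circleMap 0 1 θ - r * Complex.I‖ +
        Real.log ‖circleMap 0 1 θ - -(r * Complex.I)‖) := by
    intro θ
    have h3 := norm_prod r θ
    have h4 : ‖circleMap 0 1 θ - r * Complex.I‖ * ‖circleMap 0 1 θ - -(r * Complex.I)‖ ≠ 0 := by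
      intro h
      rw [h] at h3
      have : 0 < (1 - r ^ 2) ^ 2 + 4 * r ^ 2 * Real.cos θ ^ 2 := by positivity
      linarith
    rw [← h3, Real.log_pow, Real.log_mul (left_ne_zero_of_mul h4) (right_ne_zero_of_mul h4)]
    norm_num
  have a0 : ∀ α : ℂ, ‖α‖ ≤ 1 →
      ∫ θ in (0 : ℝ)..(2 * Real.pi), Real.log ‖circleMap 0 1 θ - α‖ = 0 := by
    intro α hα
    have := circleAverage_log_norm_sub_const_eq_posLog (a := α)
    rw [Real.circleAverage, smul_eq_mul,
      (Real.posLog_eq_zero_iff _).2 (by rwa [abs_of_nonneg (norm_nonneg _)])] at this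
    exact (mul_eq_zero.1 this).resolve_left (by positivity)
  have hn : ‖(r : ℂ) * Complex.I‖ ≤ 1 := by
    rw [norm_mul, Complex.norm_I, mul_one, Complex.norm_real, Real.norm_eq_abs, abs_of_nonneg h0]
    exact h1.le
  have i1 : ∀ α : ℂ, IntervalIntegrable (fun θ => Real.log ‖circleMap 0 1 θ - α‖) volume 0
      (2 * Real.pi) := fun α => circleIntegrable_log_norm_sub_const (a := α) (c := 0) 1
  rw [h2]
  simp only [e]
  rw [intervalIntegral.integral_const_mul, intervalIntegral.integral_add (i1 _) (i1 _), a0 _ hn,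
    a0 _ (by rwa [norm_neg])]
  simp

/-- the upper mean -/
theorem up_mean {k ρ : ℝ} (hk : 1 ≤ k) (h0 : 0 < ρ) (h1 : ρ ≤ 1 / 2) :
    ∫ z, Real.log (|a k z.1| + 6) ∂mQ ≤ Real.log (Real.pi * k) + ρ + 5 / (k * ρ) ^ 2 := by
  have hk0 : 0 < k := by linarith
  have hπ := Real.pi_gt_three
  set r := √(1 - ρ) with hr
  have hr2 : r ^ 2 = 1 - ρ := Real.sq_sqrt (by linarith)
  have hr0 : 0 ≤ r := Real.sqrt_nonneg _
  have hr1 : r < 1 := by nlinarith
  set c := Real.log (Real.pi * k) + ρ + 5 / (k * ρ) ^ 2 with hc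
  have hcont : Continuous fun x : ℝ =>
      Real.log ((1 - r ^ 2) ^ 2 + 4 * r ^ 2 * Real.cos (2 * Real.pi * x) ^ 2) :=
    Continuous.log (by fun_prop) fun x => by
      rw [hr2, sub_sub_cancel]
      have : 0 ≤ 1 - ρ := by linarith
      positivity
  have key : ∀ x, Real.log (|a k x| + 6) ≤ c + 1 / 2 *
      Real.log ((1 - r ^ 2) ^ 2 + 4 * r ^ 2 * Real.cos (2 * Real.pi * x) ^ 2) := by
    intro x
    have h2 := (abs_a_cmp hk0.le x).1
    rw [hr2, sub_sub_cancel, ← sq_abs (Real.cos _)]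
    have h3 := abs_nonneg (Real.cos (2 * Real.pi * x))
    generalize |Real.cos (2 * Real.pi * x)| = y at h2 h3
    have h4 := abs_nonneg (a k x)
    generalize |a k x| = b at h2 h4
    set d := 3 / (k * ρ) with hd
    have hd0 : 0 ≤ d := by positivity
    have hρ : 0 < 1 - ρ := by linarith
    have hS : 0 < ρ ^ 2 + 4 * (1 - ρ) * y ^ 2 := by positivity
    have h5 : b + 6 ≤ Real.pi * k * (2 * y + d * ρ) := by
      have : k * (d * ρ) = 3 := by rw [hd]; field_simp
      nlinarith
    have h6 : (2 * y + d * ρ) ^ 2 ≤ (1 + 2 * ρ + d ^ 2) * (ρ ^ 2 + 4 * (1 - ρ) * y ^ 2) := by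
      have h7 : 1 ≤ (1 + 2 * ρ) * (1 - ρ) := by nlinarith
      have h8 : 4 * y ^ 2 ≤ (1 + 2 * ρ) * (4 * (1 - ρ) * y ^ 2) := by nlinarith [sq_nonneg y]
      have h9 : 4 * y * d * ρ ≤ (1 + 2 * ρ) * ρ ^ 2 + d ^ 2 * (4 * (1 - ρ) * y ^ 2) := by
        have h10 : 0 ≤ ((1 + 2 * ρ) * ρ - 2 * d * y) ^ 2 := sq_nonneg _
        have h11 : 4 * (d * y) ^ 2 ≤ (1 + 2 * ρ) * (d ^ 2 * (4 * (1 - ρ) * y ^ 2)) := by
          nlinarith [sq_nonneg (d * y)]
        have h12 : 0 < 1 + 2 * ρ := by linarith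
        refine le_of_mul_le_mul_left ?_ h12
        nlinarith
      nlinarith
    have h7 : Real.log ((b + 6) ^ 2) ≤ Real.log ((Real.pi * k) ^ 2 *
        ((1 + 2 * ρ + d ^ 2) * (ρ ^ 2 + 4 * (1 - ρ) * y ^ 2))) := by
      refine Real.log_le_log (by positivity) ?_
      refine (pow_le_pow_left₀ (by positivity) h5 2).trans ?_
      rw [mul_pow]
      exact mul_le_mul_of_nonneg_left h6 (by positivity)
    rw [Real.log_mul (by positivity) (by positivity), Real.log_mul (by positivity) hS.ne',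
      Real.log_pow, Real.log_pow] at h7
    have h8 := Real.log_le_sub_one_of_pos (show 0 < 1 + 2 * ρ + d ^ 2 by positivity)
    have h9 : d ^ 2 = 9 * (1 / (k * ρ) ^ 2) := by rw [hd]; field_simp; norm_num
    have h10 : 5 / (k * ρ) ^ 2 = 5 * (1 / (k * ρ) ^ 2) := by ring
    have h11 : 0 ≤ 1 / (k * ρ) ^ 2 := by positivity
    push_cast at h7
    rw [hc, h10]
    linarith
  rw [integral_fst (fun x => Real.log (|a k x| + 6)), integral_Ico_eq_integral_Ioc,
    ← intervalIntegral.integral_of_le zero_le_one]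
  have hi : IntervalIntegrable (fun x : ℝ => 1 / 2 *
      Real.log ((1 - r ^ 2) ^ 2 + 4 * r ^ 2 * Real.cos (2 * Real.pi * x) ^ 2)) volume 0 1 :=
    (hcont.intervalIntegrable _ _).const_mul _
  refine (intervalIntegral.integral_mono_on zero_le_one
    ((continuous_up k).intervalIntegrable _ _) (intervalIntegrable_const.add hi)
    fun x _ => key x).trans ?_
  rw [intervalIntegral.integral_add intervalIntegrable_const hi,
    intervalIntegral.integral_const_mul, int_log_sq hr0 hr1]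
  simp

end Vale.Agent.N108X
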